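import Vale.Agent.P363.H95.Pos
import Vale.Agent.P363.R.Sob.S08
import Vale.Agent.P363.H917.SobolevH1

/-! Block B6.2: a minimiser of the one-body form has a strict sign. -/

namespace Vale.Agent.P363.H95

open MeasureTheory Filter Topology
open Vale.Agent.P363.Stmt (R3 MemV)
open Vale.Agent.P363.R.Sob Vale.Agent.P363.R.KS
open scoped ContDiff ENNReal

set_option linter.unusedSectionVars false

noncomputable section

variable {v : R3 → ℝ} {e : ℝ} {f h : R3 → ℝ} {g k : Fin 3 → R3 → ℝ}

theorem memV_locallyIntegrable (hv : MemV v) : LocallyIntegrable v (volume : Measure R3) := by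
  obtain ⟨a, b, ha, hb, rfl⟩ := hv
  have ha' : MemLp a (3 / 2) (volume : Measure R3) := ha
  have hb' : MemLp b ⊤ (volume : Measure R3) := hb
  refine (ha'.locallyIntegrable ?_).add (hb'.locallyIntegrable (by norm_num))
  rw [ENNReal.le_div_iff_mul_le (by simp) (by simp)]
  norm_num

instance holder663 : ENNReal.HolderTriple 6 6 3 := ⟨by
  rw [← ENNReal.toReal_eq_toReal_iff' (by simp) (by simp), ENNReal.toReal_add (by simp) (by simp)]
  simp only [ENNReal.toReal_inv, ENNReal.toReal_ofNat]
  norm_num⟩

instance holder3231 : ENNReal.HolderTriple (3 / 2) 3 1 := ⟨by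
  rw [← ENNReal.toReal_eq_toReal_iff' (by simp) (by simp), ENNReal.toReal_add (by simp) (by simp)]
  simp only [ENNReal.toReal_inv, ENNReal.toReal_ofNat, ENNReal.toReal_div]
  norm_num⟩

/-- integrability of `(v - e) f h` for `f, h ∈ H¹`. -/
theorem integrable_form (hv : MemV v) (hf : H1 f g) (hh : H1 h k) (e : ℝ) :
    Integrable (fun x => (v x - e) * f x * h x) (volume : Measure R3) := by
  obtain ⟨a, b, ha, hb, rfl⟩ := hv
  have ha' : MemLp a (3 / 2) (volume : Measure R3) := ha
  have hb' : MemLp b ⊤ (volume : Measure R3) := hb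
  have h6 := H917.H1.memLp_six hf
  have h6' := H917.H1.memLp_six hh
  have h3 : MemLp (fun x => f x * h x) 3 (volume : Measure R3) := h6'.mul h6
  have h1 : Integrable (fun x => f x * h x) (volume : Measure R3) := hf.mem.integrable_mul hh.mem
  have i1 : Integrable (fun x => a x * (f x * h x)) (volume : Measure R3) :=
    memLp_one_iff_integrable.1 (h3.mul ha')
  have i2 : Integrable (fun x => b x * (f x * h x)) (volume : Measure R3) :=
    memLp_one_iff_integrable.1 ((memLp_one_iff_integrable.2 h1).mul hb')
  refine ((i1.add i2).sub (h1.const_mul e)).congr (Eventually.of_forall fun x => ?_)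
  simp only [Pi.add_apply, Pi.sub_apply]
  ring

theorem H1.add (hf : H1 f g) (hh : H1 h k) :
    H1 (fun x => f x + h x) (fun i x => g i x + k i x) :=
  ⟨hf.mem.add hh.mem, fun i => (hf.gmem i).add (hh.gmem i), fun i =>
    (hf.wd i).add (hh.wd i) (hf.mem.locallyIntegrable (by norm_num))
      ((hf.gmem i).locallyIntegrable (by norm_num)) (hh.mem.locallyIntegrable (by norm_num))
      ((hh.gmem i).locallyIntegrable (by norm_num))⟩

theorem H1.const_mul (hf : H1 f g) (c : ℝ) :
    H1 (fun x => c * f x) (fun i x => c * g i x) :=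
  ⟨hf.mem.const_mul c, fun i => (hf.gmem i).const_mul c, fun i => by
    simpa using (hf.wd i).const_smul c⟩

theorem H1.abs (hf : H1 f g) :
    H1 (fun x => |f x|) (fun i x => if 0 < f x then g i x else -g i x) := by
  refine ⟨hf.mem.abs, fun i => ?_, fun i => (hf.wd i).abs
    (hf.mem.locallyIntegrable (by norm_num)) ((hf.gmem i).locallyIntegrable (by norm_num))⟩
  refine (hf.gmem i).mono ?_ (Eventually.of_forall fun x => ?_)
  · have h1 := aesm_indicator_pos hf.mem.1 (hf.gmem i).1
    have h2 : AEStronglyMeasurable (fun x => 2 * (if 0 < f x then g i x else 0) - g i x)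
        (volume : Measure R3) := (h1.const_mul 2).sub (hf.gmem i).1
    refine h2.congr (Eventually.of_forall fun x => ?_)
    beta_reduce
    split_ifs <;> ring
  · split_ifs <;> simp

theorem integrable_grad (hf : H1 f g) (hh : H1 h k) :
    Integrable (fun x => ∑ i, g i x * k i x) (volume : Measure R3) :=
  integrable_finsetSum _ fun i _ => (hf.gmem i).integrable_mul (hh.gmem i)

theorem qf_add_left {f' : R3 → ℝ} {g' : Fin 3 → R3 → ℝ} (hv : MemV v) (hf : H1 f g)
    (hf' : H1 f' g') (hh : H1 h k) :
    qf v e (fun x => f x + f' x) (fun i x => g i x + g' i x) h k =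
      qf v e f g h k + qf v e f' g' h k := by
  unfold qf
  have e1 : ∫ x, ∑ i, (g i x + g' i x) * k i x
      = (∫ x, ∑ i, g i x * k i x) + ∫ x, ∑ i, g' i x * k i x := by
    rw [← integral_add (integrable_grad hf hh) (integrable_grad hf' hh)]
    congr 1; funext x
    rw [← Finset.sum_add_distrib]
    exact Finset.sum_congr rfl fun i _ => by ring
  have e2 : ∫ x, (v x - e) * (f x + f' x) * h x
      = (∫ x, (v x - e) * f x * h x) + ∫ x, (v x - e) * f' x * h x := by
    rw [← integral_add (integrable_form hv hf hh e) (integrable_form hv hf' hh e)]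
    congr 1; funext x; ring
  rw [e1, e2]; ring

theorem qf_smul_left (c : ℝ) :
    qf v e (fun x => c * f x) (fun i x => c * g i x) h k = c * qf v e f g h k := by
  unfold qf
  have e1 : ∫ x, ∑ i, (c * g i x) * k i x = c * ∫ x, ∑ i, g i x * k i x := by
    rw [← integral_const_mul]
    congr 1; funext x
    rw [Finset.mul_sum]
    exact Finset.sum_congr rfl fun i _ => by ring
  have e2 : ∫ x, (v x - e) * (c * f x) * h x = c * ∫ x, (v x - e) * f x * h x := by
    rw [← integral_const_mul]
    congr 1; funext x; ring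
  rw [e1, e2]; ring

theorem qf_comm : qf v e f g h k = qf v e h k f g := by
  unfold qf
  congr 2
  · congr 1; funext x; exact Finset.sum_congr rfl fun i _ => mul_comm _ _
  · funext x; ring

theorem qf_add_smul (hv : MemV v) (hf : H1 f g) (hh : H1 h k) (t : ℝ) :
    qf v e (fun x => f x + t * h x) (fun i x => g i x + t * k i x)
      (fun x => f x + t * h x) (fun i x => g i x + t * k i x) =
      qf v e f g f g + 2 * t * qf v e f g h k + t ^ 2 * qf v e h k h k := by
  have ht := H1.const_mul hh t
  have hs := H1.add hf ht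
  rw [qf_add_left hv hf ht hs, qf_smul_left, qf_comm (h := fun x => f x + t * h x),
    qf_comm (f := h) (h := fun x => f x + t * h x), qf_add_left hv hf ht hf,
    qf_add_left hv hf ht hh, qf_smul_left, qf_smul_left, qf_comm (f := h) (h := f)]
  ring

/-- Euler-Lagrange equation of a minimiser. -/
theorem el_of_min (hv : MemV v) (hlow : ∀ f g, H1 f g → 0 ≤ qf v e f g f g) (hf : H1 f g)
    (h0 : qf v e f g f g = 0) (hh : H1 h k) : qf v e f g h k = 0 := by
  by_contra hne
  set b := qf v e f g h k with hb
  set c := qf v e h k h k with hc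
  have hc0 : 0 ≤ c := hlow _ _ hh
  have key : ∀ t : ℝ, 0 ≤ 2 * t * b + t ^ 2 * c := fun t => by
    have h1 := hlow _ _ (H1.add hf (H1.const_mul hh t))
    rw [qf_add_smul hv hf hh, h0] at h1
    linarith
  have h2 := key (-b / (c + 1))
  have hc1 : 0 < c + 1 := by linarith
  have h3 : 2 * (-b / (c + 1)) * b + (-b / (c + 1)) ^ 2 * c
      = -(b ^ 2 * (c + 2)) / (c + 1) ^ 2 := by
    field_simp; ring
  rw [h3] at h2
  have h4 : 0 < b ^ 2 * (c + 2) := by positivity
  have h5 : -(b ^ 2 * (c + 2)) / (c + 1) ^ 2 < 0 :=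
    div_neg_of_neg_of_pos (by linarith) (by positivity)
  linarith

theorem qf_abs (f : R3 → ℝ) (g : Fin 3 → R3 → ℝ) :
    qf v e (fun x => |f x|) (fun i x => if 0 < f x then g i x else -g i x)
      (fun x => |f x|) (fun i x => if 0 < f x then g i x else -g i x) = qf v e f g f g := by
  unfold qf
  congr 2
  · congr 1; funext x
    refine Finset.sum_congr rfl fun i _ => ?_
    beta_reduce
    split_ifs <;> ring
  · funext x
    rw [mul_assoc, abs_mul_abs_self, mul_assoc]

/-- B6.2. A minimiser of the one-body form has a strict sign. -/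
theorem sign_of_min {v : R3 → ℝ} (hv : MemV v) {e : ℝ}
    (hlow : ∀ f g, H1 f g → 0 ≤ qf v e f g f g) {f : R3 → ℝ} {g : Fin 3 → R3 → ℝ} (hf : H1 f g)
    (hne : ∫ x, f x ^ 2 ≠ 0) (h0 : qf v e f g f g = 0) :
    (∀ᵐ x, 0 < f x) ∨ (∀ᵐ x, f x < 0) := by
  have hvl := memV_locallyIntegrable hv
  have ha := H1.abs hf
  have ha0 : qf v e _ _ _ _ = 0 := (qf_abs (v := v) (e := e) f g).trans h0
  -- |f| is positive a.e. (it is not zero a.e.)
  rcases pos_dichotomy hvl ha (Eventually.of_forall fun x => abs_nonneg _)
    (fun h k hh => el_of_min hv hlow ha ha0 hh) with hp | hz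
  · -- f⁺ = (|f| + f)/2
    have hs := H1.const_mul (H1.add ha hf) (1 / 2)
    have hse : ∀ h k, H1 h k → qf v e (fun x => 1 / 2 * (|f x| + f x))
        (fun i x => 1 / 2 * ((if 0 < f x then g i x else -g i x) + g i x)) h k = 0 := by
      intro h k hh
      rw [qf_smul_left, qf_add_left hv ha hf hh, el_of_min hv hlow ha ha0 hh,
        el_of_min hv hlow hf h0 hh]
      ring
    rcases pos_dichotomy hvl hs (Eventually.of_forall fun x => by
      have := neg_abs_le (f x); linarith) hse with hp2 | hz2
    · left
      filter_upwards [hp2] with x hx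
      by_contra hneg
      rw [abs_of_nonpos (not_lt.1 hneg)] at hx
      norm_num at hx
    · right
      filter_upwards [hp, hz2] with x hx hx2
      have h1 : |f x| = - f x := by linarith
      rw [h1] at hx
      linarith
  · exfalso
    apply hne
    have : (fun x => f x ^ 2) =ᵐ[(volume : Measure R3)] fun _ => 0 := by
      filter_upwards [hz] with x hx
      rw [abs_eq_zero.1 hx]; norm_num
    rw [integral_congr_ae this, integral_zero]

end

end Vale.Agent.P363.H95
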