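import Vale.Agent.P363.H95.RepTen

/-! (T5), (T6): Dyson amplitudes and densities of `ofTen` states. -/

namespace Vale.Agent.P363.H95

open MeasureTheory Filter Topology
open Vale.Agent.P363.Stmt Vale.Agent.P363.R.Sob Vale.Agent.P363.H382 Vale.Agent.P363.R.Top
open Vale.Agent.P363.H518 (coef integrable_coef)
open scoped ContDiff ENNReal ComplexConjugate

set_option linter.unusedSectionVars false

noncomputable section

variable {ι : Type} [Fintype ι] [DecidableEq ι] {n : ℕ} {u : ι → R3 → ℂ}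
  {gu : ι → Fin 3 → R3 → ℂ}

theorem coef_tp_orth (ho : Orth u) (a b : Fin n → ι) :
    coef (volume : Measure (Conf n)) (tp fun i => u (a i)) (tp fun i => u (b i)) =
      if a = b then 1 else 0 := by
  rw [coef_tp]
  split_ifs with h
  · subst h
    exact Finset.prod_eq_one fun j _ => by rw [ho, if_pos rfl]
  · obtain ⟨j, hj⟩ := Function.ne_iff.1 h
    exact Finset.prod_eq_zero (Finset.mem_univ j) (by rw [ho, if_neg hj])

/-- Pythagoras for combinations of products of orbitals. -/
theorem integral_comb_sq (hu : ∀ a, MemLp (u a) 2 (volume : Measure R3)) (ho : Orth u)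
    (b : (Fin n → ι) → ℂ) :
    ∫ y : Conf n, ‖∑ a : Fin n → ι, b a * tp (fun i => u (a i)) y‖ ^ 2 = ∑ a, ‖b a‖ ^ 2 := by
  have hm : ∀ a : Fin n → ι, MemLp (fun y => b a * tp (fun i => u (a i)) y) 2
      (volume : Measure (Conf n)) := fun a => (memLp_tp fun j => hu _).const_mul _
  have h1 : coef (volume : Measure (Conf n)) (fun y => ∑ a, b a * tp (fun i => u (a i)) y)
      (fun y => ∑ a, b a * tp (fun i => u (a i)) y) = ∑ a, ((‖b a‖ ^ 2 : ℝ) : ℂ) := by
    rw [coef_sum_left _ (memLp_finsetSum _ fun a _ => hm a) fun a _ => hm a]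
    refine Finset.sum_congr rfl fun a _ => ?_
    rw [coef_sum_right _ (hm a) fun a _ => hm a]
    have h2 : ∀ a' : Fin n → ι, coef (volume : Measure (Conf n))
        (fun y => b a * tp (fun i => u (a i)) y) (fun y => b a' * tp (fun i => u (a' i)) y) =
        if a' = a then ((‖b a‖ ^ 2 : ℝ) : ℂ) else 0 := by
      intro a'
      rw [coef_mul_left, coef_mul_right, coef_tp_orth ho]
      by_cases h : a' = a
      · subst h
        rw [if_pos rfl, if_pos rfl, mul_one, Complex.conj_mul']
        push_cast; rfl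
      · rw [if_neg (Ne.symm h), if_neg h]; simp
    rw [Finset.sum_congr rfl fun a' _ => h2 a']
    simp
  have h3 : coef (volume : Measure (Conf n)) (fun y => ∑ a, b a * tp (fun i => u (a i)) y)
      (fun y => ∑ a, b a * tp (fun i => u (a i)) y) =
      ((∫ y : Conf n, ‖∑ a : Fin n → ι, b a * tp (fun i => u (a i)) y‖ ^ 2 : ℝ) : ℂ) := by
    unfold coef
    rw [← integral_complex_ofReal]
    congr 1; funext y
    rw [Complex.conj_mul']
    push_cast; rfl
  rw [h3] at h1
  exact_mod_cast h1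

variable {H : OneBody u gu} {c : (Fin (n + 1) → ι × Fin 2) → ℂ} {hc : AntiT c}

theorem pair_cons1 (p : ι) (σ : Fin 2) (a : Fin n → ι) (s : Fin n → Fin 2) :
    (fun i => ((Fin.cons p a : Fin (n + 1) → ι) i, (Fin.cons σ s : Fin (n + 1) → Fin 2) i)) =
      (Fin.cons (p, σ) (fun i => (a i, s i)) : Fin (n + 1) → ι × Fin 2) := by
  funext i
  refine Fin.cases rfl (fun i => ?_) i
  simp

theorem amp_ofTen_cons (σ : Fin 2) (s : Fin n → Fin 2) (x : R3) (y : Conf n) :
    (ofTen H c hc).amp (Fin.cons σ s) (Fin.cons x y) =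
      ∑ a : Fin n → ι, (∑ p, c (Fin.cons (p, σ) (fun i => (a i, s i))) * u p x) *
        tp (fun i => u (a i)) y := by
  have e : (ofTen H c hc).amp (Fin.cons σ s) (Fin.cons x y) =
      ∑ a : Fin (n + 1) → ι, c (fun i => (a i, (Fin.cons σ s : Fin (n + 1) → Fin 2) i)) *
        tp (fun i => u (a i)) (Fin.cons x y : Conf (n + 1)) := rfl
  rw [e, sum_cons, Finset.sum_comm]
  refine Finset.sum_congr rfl fun a _ => ?_
  rw [Finset.sum_mul]
  refine Finset.sum_congr rfl fun p _ => ?_
  rw [pair_cons1, tp_cons]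
  simp only [Fin.cons_zero, Fin.cons_succ]
  ring

/-- (T5), general first argument. -/
theorem dyson_ofTen (Φ : ElectronState n) (σ : Fin 2) (x : R3) :
    dyson Φ (ofTen H c hc) σ x =
      ∑ p, (∑ J, conj (cT u Φ J) * c (Fin.cons (p, σ) J)) * u p x := by
  unfold dyson
  simp only [amp_ofTen_cons]
  have h1 : ∀ s : Spn n, ∫ y : Conf n, conj (Φ.amp s y) *
      ∑ a : Fin n → ι, (∑ p, c (Fin.cons (p, σ) (fun i => (a i, s i))) * u p x) *
        tp (fun i => u (a i)) y =
      ∑ a : Fin n → ι, (∑ p, c (Fin.cons (p, σ) (fun i => (a i, s i))) * u p x) *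
        conj (cT u Φ fun i => (a i, s i)) := by
    intro s
    have h2 := coef_sum_right (μ := (volume : Measure (Conf n))) Finset.univ (g := Φ.amp s)
      (f := fun (a : Fin n → ι) y =>
        (∑ p, c (Fin.cons (p, σ) (fun i => (a i, s i))) * u p x) * tp (fun i => u (a i)) y)
      (amp_L2 Φ s) (fun a _ => (memLp_tp fun j => H.mem _).const_mul _)
    unfold coef at h2
    rw [h2]
    refine Finset.sum_congr rfl fun a _ => ?_
    have h3 := coef_mul_right (μ := (volume : Measure (Conf n))) (g := Φ.amp s)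
      (f := tp fun i => u (a i)) (∑ p, c (Fin.cons (p, σ) (fun i => (a i, s i))) * u p x)
    unfold coef at h3
    rw [h3]
    congr 1
    exact (coef_conj_symm (μ := (volume : Measure (Conf n))) (tp fun i => u (a i))
      (Φ.amp s)).symm
  rw [Finset.sum_congr rfl fun s _ => h1 s]
  have h4 := sum_pair (N := n) (ι := ι) (fun J => (∑ p, c (Fin.cons (p, σ) J) * u p x) *
        conj (cT u Φ J))
  rw [← h4]
  simp only [Finset.sum_mul]
  rw [Finset.sum_comm]
  refine Finset.sum_congr rfl fun p _ => Finset.sum_congr rfl fun J _ => by ring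

/-- (T5) -/
theorem dyson_ofTen_ofTen (ho : Orth u) {d : (Fin n → ι × Fin 2) → ℂ} {hd : AntiT d}
    (σ : Fin 2) (x : R3) :
    dyson (ofTen H d hd) (ofTen H c hc) σ x =
      ∑ p, (∑ J, conj (d J) * c (Fin.cons (p, σ) J)) * u p x := by
  rw [dyson_ofTen]
  refine Finset.sum_congr rfl fun p _ => ?_
  congr 1
  exact Finset.sum_congr rfl fun J _ => by rw [cT_ofTen ho]

/-- (T6) density of an `ofTen` state as a sum of squares. -/
theorem density_ofTen (ho : Orth u) (r : R3) :
    density (ofTen H c hc) r = (n + 1 : ℝ) * ∑ σ : Fin 2, ∑ J : Fin n → ι × Fin 2,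
      ‖∑ p, c (Fin.cons (p, σ) J) * u p r‖ ^ 2 := by
  rw [density_eq]
  congr 1
  rw [sum_cons]
  refine Finset.sum_congr rfl fun σ _ => ?_
  rw [sum_pair]
  refine Finset.sum_congr rfl fun s _ => ?_
  simp only [amp_ofTen_cons]
  exact integral_comb_sq H.mem ho _

/-- (T6) density of an `ofTen` state through its one-body density matrix. -/
theorem density_ofTen' (ho : Orth u) (r : R3) :
    ((density (ofTen H c hc) r : ℝ) : ℂ) = (n + 1 : ℂ) * ∑ σ : Fin 2, ∑ p, ∑ q,
      (∑ J : Fin n → ι × Fin 2, conj (c (Fin.cons (p, σ) J)) * c (Fin.cons (q, σ) J)) *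
        (conj (u p r) * u q r) := by
  rw [density_ofTen ho]
  push_cast
  congr 1
  refine Finset.sum_congr rfl fun σ _ => ?_
  have h1 : ∀ J : Fin n → ι × Fin 2, ((‖∑ p, c (Fin.cons (p, σ) J) * u p r‖ : ℝ) : ℂ) ^ 2 =
      ∑ p, ∑ q, (conj (c (Fin.cons (p, σ) J)) * c (Fin.cons (q, σ) J)) *
        (conj (u p r) * u q r) := by
    intro J
    rw [← Complex.conj_mul', map_sum, Finset.sum_mul_sum]
    refine Finset.sum_congr rfl fun p _ => Finset.sum_congr rfl fun q _ => ?_
    rw [map_mul]; ring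
  rw [Finset.sum_congr rfl fun J _ => h1 J, Finset.sum_comm]
  refine Finset.sum_congr rfl fun p _ => ?_
  rw [Finset.sum_comm]
  refine Finset.sum_congr rfl fun q _ => ?_
  rw [Finset.sum_mul]

end

end Vale.Agent.P363.H95
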