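import Vale.Agent.P363.H95.RepForm
import Vale.Agent.P363.H979.CI.Defs

/-! (T4) The repulsion form of `ofTen` states as a tensor formula. -/

namespace Vale.Agent.P363.H95

open MeasureTheory Filter Topology
open Vale.Agent.P363.Stmt Vale.Agent.P363.R.Sob Vale.Agent.P363.H382 Vale.Agent.P363.R.Top
open Vale.Agent.P363.H518 (coef pcoef memLp_conj integrable_coef memLp_mul_prod)
open scoped ContDiff ENNReal ComplexConjugate

set_option linter.unusedSectionVars false

noncomputable section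

theorem sum_cons {X M : Type*} [Fintype X] [AddCommMonoid M] {n : ℕ}
    (f : (Fin (n + 1) → X) → M) :
    ∑ J, f J = ∑ p : X, ∑ J' : Fin n → X, f (Fin.cons p J') := by
  rw [← Equiv.sum_comp (Fin.consEquiv (fun _ : Fin (n + 1) => X)) f, Fintype.sum_prod_type]
  rfl

theorem sum_cons2 {X M : Type*} [Fintype X] [AddCommMonoid M] {n : ℕ}
    (f : (Fin (n + 2) → X) → M) :
    ∑ J, f J = ∑ p : X, ∑ q : X, ∑ J' : Fin n → X, f (Fin.cons p (Fin.cons q J')) := by
  rw [sum_cons]
  exact Finset.sum_congr rfl fun p _ => sum_cons _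

variable {ι : Type} [Fintype ι] [DecidableEq ι] {n : ℕ} {u : ι → R3 → ℂ}
  {gu : ι → Fin 3 → R3 → ℂ}

/-- Coulomb integrals `∬ conj(u_a) u_b (x) conj(u_c) u_d (y) / |x-y|`. -/
def Dc (u : ι → R3 → ℂ) (a b c d : ι) : ℂ :=
  coul (fun r => conj (u a r) * u b r) (fun r => conj (u c r) * u d r)

/-- integrability of the Coulomb integrands -/
def CoulInt (u : ι → R3 → ℂ) : Prop := ∀ a b c d, Integrable (fun z : R3 × R3 =>
  ((1 / ‖z.1 - z.2‖ : ℝ) : ℂ) * ((conj (u a z.1) * u b z.1) * (conj (u c z.2) * u d z.2)))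

variable {H : OneBody u gu} {c d : (Fin (n + 2) → ι × Fin 2) → ℂ} {hc : AntiT c} {hd : AntiT d}

theorem integrable_kernel_ofTen (hK : CoulInt u) (s : Spn (n + 2)) :
    Integrable (fun x : Conf (n + 2) => ((1 / ‖x 0 - x 1‖ : ℝ) : ℂ) *
      (conj ((ofTen H c hc).amp s x) * (ofTen H d hd).amp s x)) := by
  have h1 : ∀ x, ((1 / ‖x 0 - x 1‖ : ℝ) : ℂ) *
      (conj ((ofTen H c hc).amp s x) * (ofTen H d hd).amp s x) =
      ∑ a : Fin (n + 2) → ι, ∑ b : Fin (n + 2) → ι,
        (conj (c fun i => (a i, s i)) * d fun i => (b i, s i)) *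
        (((1 / ‖x 0 - x 1‖ : ℝ) : ℂ) *
          (conj (tp (fun i => u (a i)) x) * tp (fun i => u (b i)) x)) := by
    intro x
    have e1 : (ofTen H c hc).amp s x = ∑ a : Fin (n + 2) → ι, c (fun i => (a i, s i)) *
        tp (fun i => u (a i)) x := rfl
    have e2 : (ofTen H d hd).amp s x = ∑ b : Fin (n + 2) → ι, d (fun i => (b i, s i)) *
        tp (fun i => u (b i)) x := rfl
    rw [e1, e2, map_sum, Finset.sum_mul_sum, Finset.mul_sum]
    refine Finset.sum_congr rfl fun a _ => ?_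
    rw [Finset.mul_sum]
    refine Finset.sum_congr rfl fun b _ => ?_
    rw [map_mul]; ring
  simp only [h1]
  exact integrable_finsetSum _ fun a _ => integrable_finsetSum _ fun b _ =>
    (integrable_kernel_tp (fun j => H.mem _) (fun j => H.mem _) (hK _ _ _ _)).const_mul _

theorem integral_kernel_ofTen (ho : Orth u) (hK : CoulInt u) (s : Spn (n + 2)) :
    ∫ x : Conf (n + 2), ((1 / ‖x 0 - x 1‖ : ℝ) : ℂ) *
      (conj ((ofTen H c hc).amp s x) * (ofTen H d hd).amp s x) =
    ∑ a : Fin (n + 2) → ι, ∑ b : Fin (n + 2) → ι,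
      (conj (c fun i => (a i, s i)) * d fun i => (b i, s i)) *
        (Dc u (a 0) (b 0) (a 1) (b 1) *
          if (fun j : Fin n => b j.succ.succ) = (fun j : Fin n => a j.succ.succ) then 1 else 0) := by
  have h1 : ∀ x, ((1 / ‖x 0 - x 1‖ : ℝ) : ℂ) *
      (conj ((ofTen H c hc).amp s x) * (ofTen H d hd).amp s x) =
      ∑ a : Fin (n + 2) → ι, ∑ b : Fin (n + 2) → ι,
        (conj (c fun i => (a i, s i)) * d fun i => (b i, s i)) *
        (((1 / ‖x 0 - x 1‖ : ℝ) : ℂ) *
          (conj (tp (fun i => u (a i)) x) * tp (fun i => u (b i)) x)) := by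
    intro x
    have e1 : (ofTen H c hc).amp s x = ∑ a : Fin (n + 2) → ι, c (fun i => (a i, s i)) *
        tp (fun i => u (a i)) x := rfl
    have e2 : (ofTen H d hd).amp s x = ∑ b : Fin (n + 2) → ι, d (fun i => (b i, s i)) *
        tp (fun i => u (b i)) x := rfl
    rw [e1, e2, map_sum, Finset.sum_mul_sum, Finset.mul_sum]
    refine Finset.sum_congr rfl fun a _ => ?_
    rw [Finset.mul_sum]
    refine Finset.sum_congr rfl fun b _ => ?_
    rw [map_mul]; ring
  have hI : ∀ a b : Fin (n + 2) → ι, Integrable (fun x : Conf (n + 2) =>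
      (conj (c fun i => (a i, s i)) * d fun i => (b i, s i)) * (((1 / ‖x 0 - x 1‖ : ℝ) : ℂ) *
          (conj (tp (fun i => u (a i)) x) * tp (fun i => u (b i)) x))) := fun a b =>
    (integrable_kernel_tp (fun j => H.mem _) (fun j => H.mem _) (hK _ _ _ _)).const_mul _
  simp only [h1]
  rw [integral_finsetSum _ fun a _ => integrable_finsetSum _ fun b _ => hI a b]
  refine Finset.sum_congr rfl fun a _ => ?_
  rw [integral_finsetSum _ fun b _ => hI a b]
  refine Finset.sum_congr rfl fun b _ => ?_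
  rw [integral_const_mul, integral_kernel_tp]
  congr 2
  split_ifs with h
  · refine Finset.prod_eq_one fun j _ => ?_
    rw [ho, if_pos]
    exact (congrFun h j).symm
  · obtain ⟨j, hj⟩ := Function.ne_iff.1 h
    exact Finset.prod_eq_zero (Finset.mem_univ j) (by rw [ho, if_neg (Ne.symm hj)])

/-- spin-orbital matrix element -/
def velc (D : ι → ι → ι → ι → ℂ) (p q p' q' : ι × Fin 2) : ℂ :=
  if p.2 = p'.2 ∧ q.2 = q'.2 then D p.1 p'.1 q.1 q'.1 else 0

theorem sum_velc (D : ι → ι → ι → ι → ℂ) (p q : ι × Fin 2) (f : ι × Fin 2 → ι × Fin 2 → ℂ) :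
    ∑ p', ∑ q', velc D p q p' q' * f p' q' =
      ∑ b0 : ι, ∑ b1 : ι, D p.1 b0 q.1 b1 * f (b0, p.2) (b1, q.2) := by
  rw [Fintype.sum_prod_type]
  refine Finset.sum_congr rfl fun b0 _ => ?_
  have h1 : ∀ t0 : Fin 2, ∑ q', velc D p q (b0, t0) q' * f (b0, t0) q' =
      if t0 = p.2 then ∑ b1 : ι, D p.1 b0 q.1 b1 * f (b0, p.2) (b1, q.2) else 0 := by
    intro t0
    rw [Fintype.sum_prod_type]
    split_ifs with h
    · refine Finset.sum_congr rfl fun b1 _ => ?_
      subst h
      have h2 : ∀ t1 : Fin 2, velc D p q (b0, p.2) (b1, t1) * f (b0, p.2) (b1, t1) =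
          if t1 = q.2 then D p.1 b0 q.1 b1 * f (b0, p.2) (b1, q.2) else 0 := by
        intro t1
        unfold velc
        by_cases ht : t1 = q.2
        · subst ht; simp
        · rw [if_neg ht, if_neg, zero_mul]
          rintro ⟨-, h3⟩
          exact ht h3.symm
      rw [Finset.sum_congr rfl fun t1 _ => h2 t1]
      simp
    · refine Finset.sum_eq_zero fun b1 _ => Finset.sum_eq_zero fun t1 _ => ?_
      unfold velc
      rw [if_neg, zero_mul]
      rintro ⟨h3, -⟩
      exact h h3.symm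
  rw [Finset.sum_congr rfl fun t0 _ => h1 t0]
  simp

theorem pair_cons {n : ℕ} {ι : Type} (b0 b1 : ι) (b' : Fin n → ι) (p q : ι × Fin 2)
    (J : Fin n → ι × Fin 2) (h : b' = fun j => (J j).1) :
    (fun i => ((Fin.cons b0 (Fin.cons b1 b' : Fin (n + 1) → ι) : Fin (n + 2) → ι) i,
      ((Fin.cons p (Fin.cons q J : Fin (n + 1) → ι × Fin 2) : Fin (n + 2) → ι × Fin 2) i).2)) =
      (Fin.cons (b0, p.2) (Fin.cons (b1, q.2) J : Fin (n + 1) → ι × Fin 2) :
        Fin (n + 2) → ι × Fin 2) := by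
  subst h
  funext i
  refine Fin.cases rfl (fun i => ?_) i
  refine Fin.cases rfl (fun i => ?_) i
  simp

/-- (T4) the repulsion form of two `ofTen` states. -/
theorem wForm_ofTen (ho : Orth u) (hK : CoulInt u) :
    wForm (ofTen H c hc) (ofTen H d hd) = ((n + 2 : ℂ) * (n + 1) / 2) *
      ∑ J : Fin n → ι × Fin 2, ∑ p, ∑ q, ∑ p', ∑ q', velc (Dc u) p q p' q' *
        (conj (c (Fin.cons p (Fin.cons q J : Fin (n + 1) → ι × Fin 2))) *
          d (Fin.cons p' (Fin.cons q' J : Fin (n + 1) → ι × Fin 2))) := by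
  rw [wForm_eq _ _ fun s => integrable_kernel_ofTen hK s]
  congr 1
  rw [Finset.sum_congr rfl fun s _ => integral_kernel_ofTen ho hK s]
  -- the left side as a sum over spin-orbital tuples
  have h1 := sum_pair (N := n + 2) (ι := ι) (fun I => ∑ b : Fin (n + 2) → ι,
      (conj (c I) * d fun i => (b i, (I i).2)) *
        (Dc u (I 0).1 (b 0) (I 1).1 (b 1) *
          if (fun j : Fin n => b j.succ.succ) = (fun j : Fin n => (I j.succ.succ).1) then 1
            else 0))
  have h2 : ∑ s : Spn (n + 2), ∑ a : Fin (n + 2) → ι, ∑ b : Fin (n + 2) → ι,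
      (conj (c fun i => (a i, s i)) * d fun i => (b i, s i)) *
        (Dc u (a 0) (b 0) (a 1) (b 1) *
          if (fun j : Fin n => b j.succ.succ) = (fun j : Fin n => a j.succ.succ) then 1 else 0) =
      ∑ I : Fin (n + 2) → ι × Fin 2, ∑ b : Fin (n + 2) → ι,
      (conj (c I) * d fun i => (b i, (I i).2)) *
        (Dc u (I 0).1 (b 0) (I 1).1 (b 1) *
          if (fun j : Fin n => b j.succ.succ) = (fun j : Fin n => (I j.succ.succ).1) then 1
            else 0) := h1.symm
  rw [h2, sum_cons2]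
  have h3 : ∀ p q : ι × Fin 2, ∀ J : Fin n → ι × Fin 2,
      ∑ b : Fin (n + 2) → ι,
      (conj (c (Fin.cons p (Fin.cons q J : Fin (n + 1) → ι × Fin 2))) * d fun i => (b i,
        ((Fin.cons p (Fin.cons q J : Fin (n + 1) → ι × Fin 2) : Fin (n + 2) → ι × Fin 2) i).2)) *
        (Dc u ((Fin.cons p (Fin.cons q J : Fin (n + 1) → ι × Fin 2) :
          Fin (n + 2) → ι × Fin 2) 0).1 (b 0)
          ((Fin.cons p (Fin.cons q J : Fin (n + 1) → ι × Fin 2) :
          Fin (n + 2) → ι × Fin 2) 1).1 (b 1) *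
          if (fun j : Fin n => b j.succ.succ) = (fun j : Fin n =>
            ((Fin.cons p (Fin.cons q J : Fin (n + 1) → ι × Fin 2) :
          Fin (n + 2) → ι × Fin 2) j.succ.succ).1) then 1 else 0) =
      ∑ p', ∑ q', velc (Dc u) p q p' q' *
        (conj (c (Fin.cons p (Fin.cons q J : Fin (n + 1) → ι × Fin 2))) *
          d (Fin.cons p' (Fin.cons q' J : Fin (n + 1) → ι × Fin 2))) := by
    intro p q J
    rw [sum_velc (Dc u) p q (fun p' q' =>
      conj (c (Fin.cons p (Fin.cons q J : Fin (n + 1) → ι × Fin 2))) *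
          d (Fin.cons p' (Fin.cons q' J : Fin (n + 1) → ι × Fin 2))), sum_cons2]
    refine Finset.sum_congr rfl fun b0 _ => Finset.sum_congr rfl fun b1 _ => ?_
    have h4 : ∀ b' : Fin n → ι,
        (conj (c (Fin.cons p (Fin.cons q J : Fin (n + 1) → ι × Fin 2))) * d fun i =>
          ((Fin.cons b0 (Fin.cons b1 b' : Fin (n + 1) → ι) : Fin (n + 2) → ι) i,
        ((Fin.cons p (Fin.cons q J : Fin (n + 1) → ι × Fin 2) : Fin (n + 2) → ι × Fin 2) i).2)) *
        (Dc u ((Fin.cons p (Fin.cons q J : Fin (n + 1) → ι × Fin 2) :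
          Fin (n + 2) → ι × Fin 2) 0).1
          ((Fin.cons b0 (Fin.cons b1 b' : Fin (n + 1) → ι) : Fin (n + 2) → ι) 0)
          ((Fin.cons p (Fin.cons q J : Fin (n + 1) → ι × Fin 2) :
          Fin (n + 2) → ι × Fin 2) 1).1
          ((Fin.cons b0 (Fin.cons b1 b' : Fin (n + 1) → ι) : Fin (n + 2) → ι) 1) *
          if (fun j : Fin n =>
            (Fin.cons b0 (Fin.cons b1 b' : Fin (n + 1) → ι) : Fin (n + 2) → ι) j.succ.succ) =
            (fun j : Fin n => ((Fin.cons p (Fin.cons q J : Fin (n + 1) → ι × Fin 2) :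
          Fin (n + 2) → ι × Fin 2) j.succ.succ).1) then 1 else 0) =
        if b' = (fun j => (J j).1) then Dc u p.1 b0 q.1 b1 *
        (conj (c (Fin.cons p (Fin.cons q J : Fin (n + 1) → ι × Fin 2))) *
          d (Fin.cons (b0, p.2) (Fin.cons (b1, q.2) J : Fin (n + 1) → ι × Fin 2))) else 0 := by
      intro b'
      have e1 : (fun j : Fin n =>
            (Fin.cons b0 (Fin.cons b1 b' : Fin (n + 1) → ι) : Fin (n + 2) → ι) j.succ.succ) =
          b' := by funext j; simp
      have e2 : (fun j : Fin n => ((Fin.cons p (Fin.cons q J : Fin (n + 1) → ι × Fin 2) :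
          Fin (n + 2) → ι × Fin 2) j.succ.succ).1) = fun j => (J j).1 := by funext j; simp
      rw [e1, e2]
      split_ifs with h
      · rw [pair_cons b0 b1 b' p q J h]
        have e3 : ((Fin.cons p (Fin.cons q J : Fin (n + 1) → ι × Fin 2) :
          Fin (n + 2) → ι × Fin 2) 0) = p := rfl
        have e4 : ((Fin.cons p (Fin.cons q J : Fin (n + 1) → ι × Fin 2) :
          Fin (n + 2) → ι × Fin 2) 1) = q := rfl
        have e5 : (Fin.cons b0 (Fin.cons b1 b' : Fin (n + 1) → ι) : Fin (n + 2) → ι) 0 = b0 := rfl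
        have e6 : (Fin.cons b0 (Fin.cons b1 b' : Fin (n + 1) → ι) : Fin (n + 2) → ι) 1 = b1 := rfl
        rw [e3, e4, e5, e6]
        ring
      · simp
    rw [Finset.sum_congr rfl fun b' _ => h4 b']
    simp
  rw [Finset.sum_congr rfl fun p _ => Finset.sum_congr rfl fun q _ =>
    Finset.sum_congr rfl fun J _ => h3 p q J]
  rw [Finset.sum_congr rfl fun p _ => Finset.sum_comm, Finset.sum_comm]

end

end Vale.Agent.P363.H95
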