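import Vale.Agent.P363.H95.TP
import Vale.Agent.P363.R.Top.Defs

/-! Electron states built from antisymmetric tensors over a finite family of one-body functions. -/

namespace Vale.Agent.P363.H95

open MeasureTheory Filter Topology
open Vale.Agent.P363.Stmt Vale.Agent.P363.R.Sob Vale.Agent.P363.H382 Vale.Agent.P363.R.Top
open Vale.Agent.P363.H518 (coef memLp_conj integrable_coef memLp_mul_prod insE insE_mp insE_dir
  insE_apply)
open scoped ContDiff ENNReal ComplexConjugate

set_option linter.unusedSectionVars false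

noncomputable section

variable {ι : Type} {N : ℕ} {u : ι → R3 → ℂ} {gu : ι → Fin 3 → R3 → ℂ}

/-- a family of `H¹` functions on `R3` with their weak gradients. -/
structure OneBody (u : ι → R3 → ℂ) (gu : ι → Fin 3 → R3 → ℂ) : Prop where
  mem : ∀ a, MemLp (u a) 2 (volume : Measure R3)
  gmem : ∀ a k, MemLp (gu a k) 2 (volume : Measure R3)
  wd : ∀ a k, IsWD (volume : Measure R3) (e3 k) (u a) (gu a k)

/-- orthonormality -/
def Orth [DecidableEq ι] (u : ι → R3 → ℂ) : Prop :=
  ∀ a b, coef (volume : Measure R3) (u a) (u b) = if a = b then 1 else 0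

/-- antisymmetric tensors -/
def AntiT (c : (Fin N → ι × Fin 2) → ℂ) : Prop :=
  ∀ (σ : Equiv.Perm (Fin N)) (J : Fin N → ι × Fin 2),
    c (J ∘ σ) = ((Equiv.Perm.sign σ : ℤ) : ℂ) * c J

/-- `(a, s) ↦ (i ↦ (a i, s i))` -/
def pairE (ι : Type) (N : ℕ) : (Fin N → ι × Fin 2) ≃ (Fin N → ι) × (Fin N → Fin 2) :=
  Equiv.arrowProdEquivProdArrow _ _ _

/-- reindexing of orbitals -/
def compE (ι : Type) {N : ℕ} (σ : Equiv.Perm (Fin N)) : (Fin N → ι) ≃ (Fin N → ι) where
  toFun a := a ∘ σ
  invFun a := a ∘ σ.symm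
  left_inv a := by funext i; simp
  right_inv a := by funext i; simp

section fin

variable [Fintype ι]

theorem sum_pair {M : Type*} [AddCommMonoid M] (f : (Fin N → ι × Fin 2) → M) :
    ∑ J, f J = ∑ s : Fin N → Fin 2, ∑ a : Fin N → ι, f fun i => (a i, s i) := by
  classical
  rw [← Equiv.sum_comp (pairE ι N).symm f, Fintype.sum_prod_type_right]
  rfl

/-- the state with given spin-orbital tensor. -/
def ofTen (H : OneBody u gu) (c : (Fin N → ι × Fin 2) → ℂ) (hc : AntiT c) : ElectronState N where
  amp s x := ∑ a : Fin N → ι, c (fun i => (a i, s i)) * tp (fun i => u (a i)) x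
  grad s i k x := ∑ a : Fin N → ι, c (fun i => (a i, s i)) *
    tp (Function.update (fun i => u (a i)) i (gu (a i) k)) x
  amp_memLp s := by
    change MemLp _ _ _
    exact memLp_finsetSum _ fun a _ => (memLp_tp fun j => H.mem _).const_mul _
  grad_memLp s i k := by
    change MemLp _ _ _
    exact memLp_finsetSum _ fun a _ =>
      (memLp_tp_update (fun j => H.mem _) i (H.gmem _ _)).const_mul _
  grad_weak s i k := by
    rw [isWeakDeriv_iff]
    intro φ hφ
    have h1 : ∀ a : Fin N → ι, IsWD volume (dir i k) (tp fun i => u (a i))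
        (tp (Function.update (fun i => u (a i)) i (gu (a i) k))) := fun a =>
      isWD_tp (fun j => H.mem _) i k (H.gmem _ _) (H.wd _ _)
    have l1 : ∀ a : Fin N → ι, LocallyIntegrable (tp fun i => u (a i))
        (volume : Measure (Conf N)) := fun a =>
      (memLp_tp fun j => H.mem _).locallyIntegrable (by norm_num)
    have l2 : ∀ a : Fin N → ι, LocallyIntegrable
        (tp (Function.update (fun i => u (a i)) i (gu (a i) k))) (volume : Measure (Conf N)) :=
      fun a => (memLp_tp_update (fun j => H.mem _) i (H.gmem _ _)).locallyIntegrable (by norm_num)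
    simp only [Finset.smul_sum]
    rw [integral_finsetSum, integral_finsetSum, ← Finset.sum_neg_distrib]
    · refine Finset.sum_congr rfl fun a _ => ?_
      exact ((h1 a).const_smul (c fun i => (a i, s i))) φ hφ
    · intro a _
      have := (hφ.integrable_smul (l2 a)).const_mul (c fun i => (a i, s i))
      refine this.congr (Eventually.of_forall fun x => ?_)
      simp only [Complex.real_smul]; ring
    · intro a _
      have := ((hφ.fderiv (dir i k)).integrable_smul (l1 a)).const_mul (c fun i => (a i, s i))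
      refine this.congr (Eventually.of_forall fun x => ?_)
      simp only [Complex.real_smul]; ring
  antisymm σ s := by
    refine Eventually.of_forall fun x => ?_
    rw [← Equiv.sum_comp (compE ι σ), Finset.mul_sum]
    refine Finset.sum_congr rfl fun b _ => ?_
    have e1 : (fun i => ((compE ι σ) b i, (s ∘ σ) i)) = (fun i => (b i, s i)) ∘ σ := rfl
    have e2 := hc σ (fun i => (b i, s i))
    have e3 : tp (fun i => u ((compE ι σ) b i)) (x ∘ σ) = tp (fun i => u (b i)) x :=
      tp_perm σ (fun i => u (b i)) x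
    rw [e1, e2, e3]
    ring

variable {H : OneBody u gu} {c d : (Fin N → ι × Fin 2) → ℂ} {hc : AntiT c} {hd : AntiT d}

/-- coefficient of a state on a product of spin-orbitals -/
def cT (u : ι → R3 → ℂ) (Ψ : ElectronState N) (J : Fin N → ι × Fin 2) : ℂ :=
  coef volume (tp fun i => u (J i).1) (Ψ.amp fun i => (J i).2)

theorem coef_add_right {X : Type*} [MeasurableSpace X] {μ : Measure X} {g f f' : X → ℂ}
    (hg : MemLp g 2 μ) (hf : MemLp f 2 μ) (hf' : MemLp f' 2 μ) :
    coef μ g (fun x => f x + f' x) = coef μ g f + coef μ g f' := by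
  unfold coef
  rw [← integral_add (integrable_coef hg hf) (integrable_coef hg hf')]
  congr 1; funext x; ring

theorem coef_mul_right {X : Type*} [MeasurableSpace X] {μ : Measure X} {g f : X → ℂ} (c : ℂ) :
    coef μ g (fun x => c * f x) = c * coef μ g f := by
  unfold coef
  rw [← integral_const_mul]
  congr 1; funext x; ring

theorem coef_sum_right {X κ : Type*} [MeasurableSpace X] {μ : Measure X} (t : Finset κ)
    {g : X → ℂ} {f : κ → X → ℂ} (hg : MemLp g 2 μ) (hf : ∀ i ∈ t, MemLp (f i) 2 μ) :
    coef μ g (fun x => ∑ i ∈ t, f i x) = ∑ i ∈ t, coef μ g (f i) := by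
  unfold coef
  rw [← integral_finsetSum _ fun i hi => integrable_coef hg (hf i hi)]
  congr 1; funext x; rw [Finset.mul_sum]

theorem coef_conj_symm {X : Type*} [MeasurableSpace X] {μ : Measure X} (g f : X → ℂ) :
    conj (coef μ g f) = coef μ f g := by
  unfold coef
  rw [← integral_conj]
  congr 1; funext x; simp [mul_comm]

theorem coef_sum_left {X κ : Type*} [MeasurableSpace X] {μ : Measure X} (t : Finset κ)
    {g : X → ℂ} {f : κ → X → ℂ} (hg : MemLp g 2 μ) (hf : ∀ i ∈ t, MemLp (f i) 2 μ) :
    coef μ (fun x => ∑ i ∈ t, f i x) g = ∑ i ∈ t, coef μ (f i) g := by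
  rw [← coef_conj_symm, coef_sum_right t hg hf, map_sum]
  exact Finset.sum_congr rfl fun i _ => coef_conj_symm _ _

theorem coef_mul_left {X : Type*} [MeasurableSpace X] {μ : Measure X} {g f : X → ℂ} (c : ℂ) :
    coef μ (fun x => c * f x) g = conj c * coef μ f g := by
  rw [← coef_conj_symm, coef_mul_right, map_mul, coef_conj_symm]

theorem inn_eq (Φ Ψ : ElectronState N) :
    inn Φ Ψ = ∑ s, coef (volume : Measure (Conf N)) (Φ.amp s) (Ψ.amp s) := rfl

/-- (T2) overlap with an arbitrary state. -/
theorem inn_ofTen_left (Ψ : ElectronState N) :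
    inn (ofTen H c hc) Ψ = ∑ J, conj (c J) * cT u Ψ J := by
  rw [inn_eq, sum_pair]
  refine Finset.sum_congr rfl fun s _ => ?_
  have h1 : (ofTen H c hc).amp s = fun x => ∑ a : Fin N → ι, c (fun i => (a i, s i)) *
      tp (fun i => u (a i)) x := rfl
  rw [h1, coef_sum_left _ (amp_L2 Ψ s) fun a _ => (memLp_tp fun j => H.mem _).const_mul _]
  refine Finset.sum_congr rfl fun a _ => ?_
  rw [coef_mul_left]
  rfl

theorem cT_ofTen [DecidableEq ι] (ho : Orth u) (J : Fin N → ι × Fin 2) :
    cT u (ofTen H c hc) J = c J := by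
  unfold cT
  have h1 : (ofTen H c hc).amp (fun i => (J i).2) = fun x => ∑ a : Fin N → ι,
      c (fun i => (a i, (J i).2)) * tp (fun i => u (a i)) x := rfl
  rw [h1, coef_sum_right _ (memLp_tp fun j => H.mem _)
    fun a _ => (memLp_tp fun j => H.mem _).const_mul _]
  have h2 : ∀ a : Fin N → ι, coef volume (tp fun i => u (J i).1)
      (fun x => c (fun i => (a i, (J i).2)) * tp (fun i => u (a i)) x) =
      if a = (fun i => (J i).1) then c J else 0 := by
    intro a
    rw [coef_mul_right, coef_tp]
    split_ifs with h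
    · subst h
      rw [Finset.prod_congr rfl fun i _ => ho _ _]
      simp
    · obtain ⟨i, hi⟩ := Function.ne_iff.1 h
      rw [Finset.prod_eq_zero (Finset.mem_univ i), mul_zero]
      rw [ho, if_neg (Ne.symm hi)]
  rw [Finset.sum_congr rfl fun a _ => h2 a]
  simp

/-- (T1) inner product of two such states. -/
theorem inn_ofTen [DecidableEq ι] (ho : Orth u) :
    inn (ofTen H c hc) (ofTen H d hd) = ∑ J, conj (c J) * d J := by
  rw [inn_ofTen_left]
  exact Finset.sum_congr rfl fun J _ => by rw [cT_ofTen ho]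

theorem normSq_eq_inn (Ψ : ElectronState N) : ((normSq Ψ : ℝ) : ℂ) = inn Ψ Ψ := by
  rw [normSq_eq, inn_eq]
  push_cast
  refine Finset.sum_congr rfl fun s _ => ?_
  unfold coef
  rw [← integral_complex_ofReal]
  congr 1; funext x
  rw [Complex.conj_mul']
  norm_cast

theorem normSq_ofTen [DecidableEq ι] (ho : Orth u) :
    normSq (ofTen H c hc) = ∑ J, ‖c J‖ ^ 2 := by
  have h := normSq_eq_inn (ofTen H c hc)
  rw [inn_ofTen ho] at h
  have h2 : (∑ J, conj (c J) * c J) = ((∑ J, ‖c J‖ ^ 2 : ℝ) : ℂ) := by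
    push_cast
    exact Finset.sum_congr rfl fun J _ => by rw [Complex.conj_mul']
  rw [h2] at h
  exact_mod_cast h

/-- antisymmetry of the coefficients of a state. -/
theorem antiT_cT (u : ι → R3 → ℂ) (Ψ : ElectronState N) : AntiT (cT u Ψ) := by
  intro σ J
  unfold cT coef
  rw [← integral_perm σ (fun x => conj (tp (fun i => u ((J ∘ σ) i).1) x) *
    Ψ.amp (fun i => ((J ∘ σ) i).2) x), ← integral_const_mul]
  refine integral_congr_ae ?_
  filter_upwards [amp_perm Ψ σ (fun i => (J i).2)] with x hx
  have e1 : (fun i => ((J ∘ σ) i).2) = (fun i => (J i).2) ∘ σ := rfl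
  have e2 : tp (fun i => u ((J ∘ σ) i).1) (x ∘ σ) = tp (fun i => u (J i).1) x :=
    tp_perm σ (fun i => u (J i).1) x
  rw [e1, hx, e2]
  ring

end fin

end

end Vale.Agent.P363.H95
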