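import Vale.Agent.P363.R.Sob.Chain

/-! A locally integrable function all of whose weak derivatives vanish is a.e. constant. -/

namespace Vale.Agent.P363.H95

open MeasureTheory Filter Topology
open Vale.Agent.P363.R.Sob
open scoped ContDiff ENNReal Convolution

set_option linter.unusedSectionVars false

noncomputable section

variable {E : Type*} [NormedAddCommGroup E] [NormedSpace ℝ E] [FiniteDimensional ℝ E]
  [MeasurableSpace E] [BorelSpace E]
variable {F : Type*} [NormedAddCommGroup F] [NormedSpace ℝ F] [CompleteSpace F]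
variable {μ : Measure E} [μ.IsAddHaarMeasure]

/-- A locally integrable function whose weak derivatives in a spanning family of directions vanish
is a.e. equal to a constant. -/
theorem ae_const_of_isWD_zero {ι : Type*} {b : ι → E} (hb : Submodule.span ℝ (Set.range b) = ⊤)
    {f : E → F} (hf : LocallyIntegrable f μ) (h : ∀ i, IsWD μ (b i) f (fun _ => 0)) :
    ∃ c : F, f =ᵐ[μ] fun _ => c := by
  have hder : ∀ n x, fderiv ℝ (moll μ (stdBump n : ContDiffBump (0 : E)) f) x = 0 := by
    intro n x
    have h0 : ∀ i, fderiv ℝ (moll μ (stdBump n : ContDiffBump (0 : E)) f) x (b i) = 0 := by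
      intro i
      rw [fderiv_moll _ (h i) hf, moll_apply]
      simp
    refine ContinuousLinearMap.ext fun w => ?_
    have hw : w ∈ Submodule.span ℝ (Set.range b) := hb ▸ Submodule.mem_top
    refine Submodule.span_induction (p := fun w _ =>
      fderiv ℝ (moll μ (stdBump n : ContDiffBump (0 : E)) f) x w = (0 : E →L[ℝ] F) w)
      ?_ ?_ ?_ ?_ hw
    · rintro _ ⟨i, rfl⟩; simpa using h0 i
    · simp
    · intro a c _ _ ha hc; rw [map_add, ha, hc]; simp
    · intro t a _ ha; rw [map_smul, ha]; simp
  have hc : ∀ n x, moll μ (stdBump n : ContDiffBump (0 : E)) f x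
      = moll μ (stdBump n : ContDiffBump (0 : E)) f 0 := fun n x =>
    is_const_of_fderiv_eq_zero
      ((moll_contDiff (μ := μ) (stdBump n) hf).differentiable (by simp)) (hder n) x 0
  have hlim : ∀ᵐ x ∂μ, Tendsto (fun n => moll μ (stdBump n : ContDiffBump (0 : E)) f x) atTop
      (𝓝 (f x)) := by
    refine ContDiffBump.ae_convolution_tendsto_right_of_locallyIntegrable (K := 2)
      tendsto_stdBump_rOut ?_ hf
    refine Eventually.of_forall fun n => ?_
    change 1 / ((n : ℝ) + 1) ≤ 2 * (1 / (2 * ((n : ℝ) + 1)))
    have : (n : ℝ) + 1 ≠ 0 := by positivity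
    apply le_of_eq
    field_simp
  obtain ⟨x0, hx0⟩ := hlim.exists
  refine ⟨f x0, ?_⟩
  filter_upwards [hlim] with x hx
  refine tendsto_nhds_unique hx (hx0.congr fun n => ?_)
  rw [hc n x, hc n x0]

end

end Vale.Agent.P363.H95
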