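import Vale.Agent.P363.H95.OfTen

/-! The weak eigenvalue equation of tensor products (and of `ofTen` states) for a sum of one-body
operators `-½Δ + v`, tested against arbitrary (not necessarily antisymmetric) `H¹` functions. -/

namespace Vale.Agent.P363.H95

open MeasureTheory Filter Topology
open Vale.Agent.P363.Stmt Vale.Agent.P363.R.Sob Vale.Agent.P363.H382 Vale.Agent.P363.R.Top
open Vale.Agent.P363.H518 (coef pcoef memLp_conj integrable_coef memLp_mul_prod memLp_pcoef insE
  insE_mp insE_dir insE_apply coef_prod isWD_pcoef)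
open scoped ContDiff ENNReal ComplexConjugate

set_option linter.unusedSectionVars false

noncomputable section

/-- contraction of `F` with the tensor product of all `w j`, `j ≠ i`. -/
def con {n : ℕ} (w : Fin (n + 1) → R3 → ℂ) (i : Fin (n + 1)) (F : Conf (n + 1) → ℂ) : R3 → ℂ :=
  pcoef volume (tp fun j => w (i.succAbove j)) (fun z : R3 × Conf n => F (insE i z))

variable {n : ℕ} {w : Fin (n + 1) → R3 → ℂ} {F : Conf (n + 1) → ℂ}

theorem memLp_ins {i : Fin (n + 1)} (hF : MemLp F 2 volume) :
    MemLp (fun z : R3 × Conf n => F (insE i z)) 2 (volume : Measure (R3 × Conf n)) :=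
  hF.comp_measurePreserving (insE_mp i)

theorem memLp_con (hw : ∀ j, MemLp (w j) 2 volume) (i : Fin (n + 1)) (hF : MemLp F 2 volume) :
    MemLp (con w i F) 2 volume :=
  memLp_pcoef (μ := (volume : Measure R3)) (ν := (volume : Measure (Conf n)))
    (memLp_tp fun j => hw (i.succAbove j)) (memLp_ins hF)

theorem isWD_con (hw : ∀ j, MemLp (w j) 2 volume) (i : Fin (n + 1)) (k : Fin 3)
    {G : Conf (n + 1) → ℂ} (hF : MemLp F 2 volume) (hG : MemLp G 2 volume)
    (h : IsWD volume (dir i k) F G) : IsWD volume (e3 k) (con w i F) (con w i G) := by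
  have h1 : IsWD (volume : Measure (R3 × Conf n)) (e3 k, (0 : Conf n))
      (fun z => F (insE i z)) (fun z => G (insE i z)) := by
    apply isWD_comp_equiv (insE i) (insE_mp i)
    rw [insE_dir]
    exact h
  exact isWD_pcoef (μ := (volume : Measure R3)) (ν := (volume : Measure (Conf n))) h1
    (memLp_ins hF) (memLp_ins hG) (memLp_tp fun j => hw (i.succAbove j))

/-- inserting `h` at position `i`. -/
theorem coef_tp_update (hw : ∀ j, MemLp (w j) 2 volume) (i : Fin (n + 1)) {h : R3 → ℂ}
    (hh : MemLp h 2 volume) (hF : MemLp F 2 volume) :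
    coef volume (tp (Function.update w i h)) F = coef volume h (con w i F) := by
  have h1 := coef_prod (μ := (volume : Measure R3)) (ν := (volume : Measure (Conf n)))
    (v := h) (w := tp fun j => w (i.succAbove j)) (memLp_ins (i := i) hF)
    (memLp_mul_prod hh (memLp_tp fun j => hw (i.succAbove j)))
  unfold con
  rw [← h1]
  unfold coef
  rw [← integral_comp_equiv (insE i) (insE_mp i)]
  congr 1
  funext z
  congr 2
  rw [insE_apply, tp_insertNth]
  simp only [Function.update_self]
  congr 1
  refine Finset.prod_congr rfl fun j _ => ?_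
  simp [Fin.succAbove_ne]

theorem coef_tp_self (hw : ∀ j, MemLp (w j) 2 volume) (i : Fin (n + 1))
    (hF : MemLp F 2 volume) :
    coef volume (tp w) F = coef volume (w i) (con w i F) := by
  have := coef_tp_update hw i (hw i) hF
  rwa [Function.update_eq_self] at this

/-- the weak eigenvalue equation of a one-body function -/
def Eig (v : R3 → ℝ) (e : ℝ) (w : R3 → ℂ) (gw : Fin 3 → R3 → ℂ) : Prop :=
  ∀ (f : R3 → ℂ) (g : Fin 3 → R3 → ℂ), MemLp f 2 (volume : Measure R3) →
    (∀ k, MemLp (g k) 2 (volume : Measure R3)) →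
    (∀ k, IsWD (volume : Measure R3) (e3 k) f (g k)) →
    (1 / 2) * (∑ k, coef volume (gw k) (g k)) + coef volume (fun r => (v r : ℂ) * w r) f =
      (e : ℂ) * coef volume w f

theorem tp_update_mul {N : ℕ} (v : R3 → ℝ) (w : Fin N → R3 → ℂ) (i : Fin N) (x : Conf N) :
    tp (Function.update w i fun r => (v r : ℂ) * w i r) x = (v (x i) : ℂ) * tp w x := by
  unfold tp
  rw [← Finset.mul_prod_erase _ _ (Finset.mem_univ i), ← Finset.mul_prod_erase _ (fun j => w j (x j))
    (Finset.mem_univ i)]
  simp only [Function.update_self]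
  rw [mul_assoc]
  congr 2
  refine Finset.prod_congr rfl fun j hj => ?_
  rw [Function.update_of_ne (Finset.ne_of_mem_erase hj)]

/-- weak eigenvalue equation of a tensor product, for `N` electrons. -/
theorem eigen_tp {N : ℕ} {w : Fin N → R3 → ℂ} {gw : Fin N → Fin 3 → R3 → ℂ} {v : R3 → ℝ}
    {e : Fin N → ℝ}
    (hw : ∀ j, MemLp (w j) 2 volume) (hgw : ∀ j k, MemLp (gw j k) 2 volume)
    (hv : ∀ j, MemLp (fun r => (v r : ℂ) * w j r) 2 volume)
    (heig : ∀ j, Eig v (e j) (w j) (gw j)) {F : Conf N → ℂ} {G : Fin N → Fin 3 → Conf N → ℂ}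
    (hF : MemLp F 2 volume) (hG : ∀ i k, MemLp (G i k) 2 volume)
    (W : ∀ i k, IsWD volume (dir i k) F (G i k)) :
    (1 / 2) * (∑ i, ∑ k, coef volume (tp (Function.update w i (gw i k))) (G i k)) +
      ∫ x, ((sumPotential v x : ℝ) : ℂ) * (conj (tp w x) * F x) =
      (∑ i, (e i : ℂ)) * coef volume (tp w) F := by
  obtain _ | n := N
  · simp [sumPotential]
  have hI : ∀ i : Fin (n + 1), Integrable (fun x : Conf (n + 1) =>
      ((v (x i) : ℝ) : ℂ) * (conj (tp w x) * F x)) volume := by
    intro i
    have h1 := integrable_coef (memLp_tp_update hw i (hv i)) hF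
    refine h1.congr (Eventually.of_forall fun x => ?_)
    simp only
    rw [tp_update_mul, map_mul, Complex.conj_ofReal]
    ring
  have e1 : ∫ x, ((sumPotential v x : ℝ) : ℂ) * (conj (tp w x) * F x) =
      ∑ i, coef volume (tp (Function.update w i fun r => (v r : ℂ) * w i r)) F := by
    have : ∀ x : Conf (n + 1), ((sumPotential v x : ℝ) : ℂ) * (conj (tp w x) * F x) =
        ∑ i, ((v (x i) : ℝ) : ℂ) * (conj (tp w x) * F x) := by
      intro x
      unfold sumPotential
      push_cast
      rw [Finset.sum_mul]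
    simp only [this]
    rw [integral_finsetSum _ fun i _ => hI i]
    refine Finset.sum_congr rfl fun i _ => ?_
    unfold coef
    congr 1
    funext x
    rw [tp_update_mul, map_mul, Complex.conj_ofReal]
    ring
  rw [e1, Finset.mul_sum, ← Finset.sum_add_distrib, Finset.sum_mul]
  refine Finset.sum_congr rfl fun i _ => ?_
  have h1 : ∀ k, coef volume (tp (Function.update w i (gw i k))) (G i k) =
      coef volume (gw i k) (con w i (G i k)) := fun k => coef_tp_update hw i (hgw i k) (hG i k)
  rw [coef_tp_update hw i (hv i) hF, coef_tp_self hw i hF, Finset.sum_congr rfl fun k _ => h1 k]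
  exact heig i (con w i F) (fun k => con w i (G i k)) (memLp_con hw i hF)
    (fun k => memLp_con hw i (hG i k)) (fun k => isWD_con hw i k hF (hG i k) (W i k))

/-! ### states -/

variable {ι : Type} [Fintype ι] {N : ℕ} {u : ι → R3 → ℂ} {gu : ι → Fin 3 → R3 → ℂ}

/-- weak form of `Σᵢ(-½Δᵢ + v(xᵢ))`: state against an arbitrary family. -/
def aForm (v : R3 → ℝ) (Φ : ElectronState N) (F : Spn N → Conf N → ℂ)
    (G : Spn N → Fin N → Fin 3 → Conf N → ℂ) : ℂ :=
  (1 / 2) * (∑ s, ∑ i, ∑ k, ∫ x, conj (Φ.grad s i k x) * G s i k x) +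
    ∑ s, ∫ x, ((sumPotential v x : ℝ) : ℂ) * (conj (Φ.amp s x) * F s x)

/-- (T3) weak eigenvalue equation of `ofTen` states. -/
theorem aForm_ofTen (H : OneBody u gu) {c : (Fin N → ι × Fin 2) → ℂ} (hc : AntiT c) {v : R3 → ℝ}
    {e : ι → ℝ} (hv : ∀ a, MemLp (fun r => (v r : ℂ) * u a r) 2 (volume : Measure R3))
    (heig : ∀ a, Eig v (e a) (u a) (gu a))
    {F : Spn N → Conf N → ℂ} {G : Spn N → Fin N → Fin 3 → Conf N → ℂ}
    (hF : ∀ s, MemLp (F s) 2 volume) (hG : ∀ s i k, MemLp (G s i k) 2 volume)
    (W : ∀ s i k, IsWD volume (dir i k) (F s) (G s i k)) :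
    aForm v (ofTen H c hc) F G = ∑ J, (∑ i, (e (J i).1 : ℂ)) * (conj (c J) *
      coef volume (tp fun i => u (J i).1) (F fun i => (J i).2)) := by
  unfold aForm
  rw [sum_pair, Finset.mul_sum, ← Finset.sum_add_distrib]
  refine Finset.sum_congr rfl fun s _ => ?_
  -- expand the gradients
  have h1 : ∀ i k, ∫ x, conj ((ofTen H c hc).grad s i k x) * G s i k x =
      ∑ a : Fin N → ι, conj (c fun i => (a i, s i)) *
        coef volume (tp (Function.update (fun i => u (a i)) i (gu (a i) k))) (G s i k) := by
    intro i k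
    have h2 : ∫ x, conj ((ofTen H c hc).grad s i k x) * G s i k x =
        coef volume (fun x => ∑ a : Fin N → ι, c (fun i => (a i, s i)) *
          tp (Function.update (fun i => u (a i)) i (gu (a i) k)) x) (G s i k) := rfl
    rw [h2, coef_sum_left _ (hG s i k) fun a _ =>
      (memLp_tp_update (fun j => H.mem _) i (H.gmem _ _)).const_mul _]
    exact Finset.sum_congr rfl fun a _ => coef_mul_left _
  have hI : ∀ a : Fin N → ι, Integrable (fun x : Conf N =>
      ((sumPotential v x : ℝ) : ℂ) * (conj (tp (fun i => u (a i)) x) * F s x)) volume := by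
    intro a
    have h2 : ∀ i : Fin N, Integrable (fun x : Conf N =>
        ((v (x i) : ℝ) : ℂ) * (conj (tp (fun i => u (a i)) x) * F s x)) volume := by
      intro i
      have h3 := integrable_coef (memLp_tp_update (w := fun i => u (a i)) (fun j => H.mem _) i
        (hv (a i))) (hF s)
      refine h3.congr (Eventually.of_forall fun x => ?_)
      beta_reduce
      rw [tp_update_mul v (fun i => u (a i)) i x, map_mul, Complex.conj_ofReal]
      ring
    refine (integrable_finsetSum Finset.univ fun i _ => h2 i).congr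
      (Eventually.of_forall fun x => ?_)
    unfold sumPotential
    push_cast
    rw [Finset.sum_mul]
  have h4 : ∫ x, ((sumPotential v x : ℝ) : ℂ) * (conj ((ofTen H c hc).amp s x) * F s x) =
      ∑ a : Fin N → ι, conj (c fun i => (a i, s i)) *
        ∫ x, ((sumPotential v x : ℝ) : ℂ) * (conj (tp (fun i => u (a i)) x) * F s x) := by
    have h5 : ∀ x, ((sumPotential v x : ℝ) : ℂ) * (conj ((ofTen H c hc).amp s x) * F s x) =
        ∑ a : Fin N → ι, conj (c fun i => (a i, s i)) *
          (((sumPotential v x : ℝ) : ℂ) * (conj (tp (fun i => u (a i)) x) * F s x)) := by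
      intro x
      have h6 : (ofTen H c hc).amp s x = ∑ a : Fin N → ι, c (fun i => (a i, s i)) *
          tp (fun i => u (a i)) x := rfl
      rw [h6, map_sum, Finset.sum_mul, Finset.mul_sum]
      refine Finset.sum_congr rfl fun a _ => ?_
      rw [map_mul]; ring
    simp only [h5]
    rw [integral_finsetSum _ fun a _ => (hI a).const_mul _]
    exact Finset.sum_congr rfl fun a _ => integral_const_mul _ _
  rw [h4]
  simp only [h1]
  have h7 : (1 / 2 : ℂ) * ∑ i : Fin N, ∑ k : Fin 3, ∑ a : Fin N → ι,
      conj (c fun i => (a i, s i)) *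
        coef volume (tp (Function.update (fun i => u (a i)) i (gu (a i) k))) (G s i k) =
      ∑ a : Fin N → ι, conj (c fun i => (a i, s i)) * ((1 / 2) * ∑ i : Fin N, ∑ k : Fin 3,
        coef volume (tp (Function.update (fun i => u (a i)) i (gu (a i) k))) (G s i k)) := by
    rw [Finset.mul_sum]
    simp only [Finset.mul_sum]
    rw [Finset.sum_congr rfl fun i _ => Finset.sum_comm, Finset.sum_comm]
    refine Finset.sum_congr rfl fun a _ => Finset.sum_congr rfl fun i _ =>
      Finset.sum_congr rfl fun k _ => by ring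
  rw [h7, ← Finset.sum_add_distrib]
  refine Finset.sum_congr rfl fun a _ => ?_
  rw [← mul_add, eigen_tp (w := fun i => u (a i)) (gw := fun i => gu (a i))
    (e := fun i => e (a i)) (fun j => H.mem _) (fun j k => H.gmem _ _) (fun j => hv _)
    (fun j => heig _) (hF s) (hG s) (W s)]
  ring

end

end Vale.Agent.P363.H95
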