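import Vale.Agent.P363.H95.Const
import Vale.Agent.P363.R.Sob.S01
import Vale.Agent.P363.R.Sob.S14
import Vale.Agent.P363.R.KS.Defs

/-! Strict positivity of a nonnegative weak solution of `-½Δφ + (v - e)φ = 0` on `ℝ³`
with `v` locally integrable. -/

namespace Vale.Agent.P363.H95

open MeasureTheory Filter Topology
open Vale.Agent.P363.Stmt (R3 MemV)
open Vale.Agent.P363.R.Sob Vale.Agent.P363.R.KS
open scoped ContDiff ENNReal

set_option linter.unusedSectionVars false

noncomputable section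

/-! ### scalar functions -/

/-- `√(t² + d²)` -/
def rt (d t : ℝ) : ℝ := Real.sqrt (t ^ 2 + d ^ 2)

/-- `t + √(t² + d²)` -/
def Sd (d t : ℝ) : ℝ := t + rt d t

variable {d t : ℝ}

theorem rt_pos (hd : 0 < d) : 0 < rt d t := Real.sqrt_pos.2 (by positivity)

theorem rt_sq : rt d t ^ 2 = t ^ 2 + d ^ 2 := Real.sq_sqrt (by positivity)

theorem abs_lt_rt (hd : 0 < d) : |t| < rt d t := by
  refine lt_of_pow_lt_pow_left₀ 2 (Real.sqrt_nonneg _) ?_
  have := rt_sq (d := d) (t := t)
  rw [this, sq_abs]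
  nlinarith [pow_pos hd 2]

theorem Sd_pos (hd : 0 < d) : 0 < Sd d t := by
  have := abs_lt_rt (t := t) hd
  have h2 := neg_abs_le t
  unfold Sd
  linarith

theorem hasDerivAt_rt (hd : 0 < d) (t : ℝ) : HasDerivAt (rt d) (t / rt d t) t := by
  have h1 : HasDerivAt (fun t : ℝ => t ^ 2 + d ^ 2) (2 * t) t := by
    simpa using (hasDerivAt_pow 2 t).add_const (d ^ 2)
  have h2 := h1.sqrt (by positivity)
  refine h2.congr_deriv ?_
  unfold rt
  have : Real.sqrt (t ^ 2 + d ^ 2) ≠ 0 := (rt_pos (t := t) hd).ne'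
  field_simp

theorem hasDerivAt_Sd (hd : 0 < d) (t : ℝ) : HasDerivAt (Sd d) (Sd d t / rt d t) t := by
  have h := (hasDerivAt_id t).add (hasDerivAt_rt hd t)
  refine h.congr_deriv ?_
  have := (rt_pos (t := t) hd).ne'
  unfold Sd
  field_simp
  ring

theorem hasDerivAt_inv_Sd (hd : 0 < d) (t : ℝ) :
    HasDerivAt (fun t => (Sd d t)⁻¹) (-(Sd d t * rt d t)⁻¹) t := by
  have h := (hasDerivAt_Sd hd t).inv (Sd_pos hd).ne'
  refine h.congr_deriv ?_
  have h1 := (rt_pos (t := t) hd).ne'
  have h2 := (Sd_pos (t := t) hd).ne'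
  field_simp

theorem hasDerivAt_log_Sd (hd : 0 < d) (t : ℝ) :
    HasDerivAt (fun t => Real.log (Sd d t)) (rt d t)⁻¹ t := by
  have h := (hasDerivAt_Sd hd t).log (Sd_pos hd).ne'
  refine h.congr_deriv ?_
  have h1 := (rt_pos (t := t) hd).ne'
  have h2 := (Sd_pos (t := t) hd).ne'
  field_simp

theorem continuous_rt : Continuous (rt d) := by
  unfold rt; fun_prop

theorem continuous_Sd : Continuous (Sd d) := by
  unfold Sd; exact continuous_id.add continuous_rt

theorem d_le_rt : d ≤ rt d t := by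
  refine le_of_sq_le_sq ?_ (Real.sqrt_nonneg _)
  have := rt_sq (d := d) (t := t)
  change d ^ 2 ≤ rt d t ^ 2
  rw [this]
  nlinarith [sq_nonneg t]

theorem Sd_mul_rt (hd : 0 < d) : d ^ 2 / 2 ≤ Sd d t * rt d t := by
  have h := rt_sq (d := d) (t := t)
  have h1 := abs_lt_rt (t := t) hd
  have h2 := neg_abs_le t
  have h3 := le_abs_self t
  unfold Sd
  nlinarith [sq_nonneg (rt d t + t)]

theorem rt_le_Sd (ht : 0 ≤ t) : rt d t ≤ Sd d t := by unfold Sd; linarith

theorem Sd_le (hd : 0 < d) : Sd d t ≤ 2 * rt d t := by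
  have h1 := abs_lt_rt (t := t) hd
  have h3 := le_abs_self t
  unfold Sd; linarith

theorem rt_le (hd : 0 < d) (ht : 0 ≤ t) : rt d t ≤ t + d := by
  unfold rt
  rw [Real.sqrt_le_left (by positivity)]
  nlinarith

/-! ### chain rule for real functions -/

section chain

variable {E : Type*} [NormedAddCommGroup E] [NormedSpace ℝ E] [FiniteDimensional ℝ E]
  [MeasurableSpace E] [BorelSpace E]
variable {μ : Measure E} [μ.IsAddHaarMeasure] {v : E}

theorem isWD_comp_real {f g : E → ℝ} {Φ Φ' : ℝ → ℝ} (h : IsWD μ v f g)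
    (hf : LocallyIntegrable f μ) (hg : LocallyIntegrable g μ)
    (hΦ : ∀ t, HasDerivAt Φ (Φ' t) t) (hc : Continuous Φ') (C : ℝ) (hC : ∀ t, |Φ' t| ≤ C) :
    IsWD μ v (fun x => Φ (f x)) (fun x => Φ' (f x) * g x) := by
  have hd : deriv Φ = Φ' := funext fun t => (hΦ t).deriv
  have h1 : ContDiff ℝ 1 Φ := contDiff_one_iff_deriv.2
    ⟨fun t => (hΦ t).differentiableAt, by rw [hd]; exact hc⟩
  have := h.comp_contDiff hf hg h1 C (fun y => by
    rw [← norm_deriv_eq_norm_fderiv, (hΦ y).deriv]; exact hC y)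
  convert this using 2 with x
  rw [(hΦ (f x)).hasFDerivAt.fderiv]
  simp [mul_comm]

end chain

/-! ### the test function `η² / (φ + √(φ²+d²))` -/

variable {v : R3 → ℝ} {e : ℝ} {φ η : R3 → ℝ} {g : Fin 3 → R3 → ℝ}

theorem inv_Sd_le (hd : 0 < d) (ht : 0 ≤ t) : (Sd d t)⁻¹ ≤ d⁻¹ :=
  inv_anti₀ hd (d_le_rt.trans (rt_le_Sd ht))

theorem inv_rt_le (hd : 0 < d) : (rt d t)⁻¹ ≤ d⁻¹ := inv_anti₀ hd d_le_rt

theorem inv_Sd_rt_le (hd : 0 < d) : (Sd d t * rt d t)⁻¹ ≤ 2 / d ^ 2 := by
  rw [show 2 / d ^ 2 = (d ^ 2 / 2)⁻¹ by field_simp]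
  exact inv_anti₀ (by positivity) (Sd_mul_rt hd)

theorem memLp_bdd_mul {f u : R3 → ℝ} {C : ℝ} (hu : MemLp u 2 (volume : Measure R3))
    (hf : AEStronglyMeasurable f (volume : Measure R3)) (hb : ∀ᵐ x, |f x| ≤ C) :
    MemLp (fun x => f x * u x) 2 (volume : Measure R3) := by
  refine MemLp.of_le_mul (c := C) hu (hf.mul hu.1) ?_
  filter_upwards [hb] with x hx
  rw [norm_mul]
  exact mul_le_mul_of_nonneg_right hx (norm_nonneg _)

/-- the test function and its gradient. -/
theorem h1_test (hφ : H1 φ g) (h0 : ∀ᵐ x, 0 ≤ φ x) (hη : Test η) (hd : 0 < d) :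
    H1 (fun x => (η x * η x) * (Sd d (φ x))⁻¹)
      (fun i x => 2 * η x * fderiv ℝ η x (dir i) * (Sd d (φ x))⁻¹
        + (η x * η x) * (-(Sd d (φ x) * rt d (φ x))⁻¹ * g i x)) := by
  have hφm : AEStronglyMeasurable φ (volume : Measure R3) := hφ.mem.1
  have mS : AEStronglyMeasurable (fun x => (Sd d (φ x))⁻¹) (volume : Measure R3) := by
    have : Continuous fun t => (Sd d t)⁻¹ := continuous_Sd.inv₀ fun t => (Sd_pos hd).ne'
    exact this.comp_aestronglyMeasurable hφm
  have mSr : AEStronglyMeasurable (fun x => -(Sd d (φ x) * rt d (φ x))⁻¹)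
      (volume : Measure R3) := by
    have : Continuous fun t => -(Sd d t * rt d t)⁻¹ :=
      ((continuous_Sd.mul continuous_rt).inv₀ fun t =>
        (mul_pos (Sd_pos hd) (rt_pos hd)).ne').neg
    exact this.comp_aestronglyMeasurable hφm
  have bS : ∀ᵐ x, |(Sd d (φ x))⁻¹| ≤ d⁻¹ := by
    filter_upwards [h0] with x hx
    rw [abs_of_pos (inv_pos.2 (Sd_pos hd))]
    exact inv_Sd_le hd hx
  have bSr : ∀ x, |(-(Sd d (φ x) * rt d (φ x))⁻¹)| ≤ 2 / d ^ 2 := fun x => by
    rw [abs_neg, abs_of_pos (inv_pos.2 (mul_pos (Sd_pos hd) (rt_pos hd)))]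
    exact inv_Sd_rt_le hd
  have hηη : Test (fun x => η x * η x) := hη.mul hη.1
  obtain ⟨B, hB⟩ := hηη.2.exists_bound_of_continuous hηη.continuous
  refine ⟨?_, fun i => ?_, fun i => ?_⟩
  · have := memLp_bdd_mul (hηη.memLp 2) mS bS
    simpa only [mul_comm] using this
  · refine MemLp.add ?_ ?_
    · have h2 : Test (fun x => 2 * η x * fderiv ℝ η x (dir i)) :=
        Test.mul' (contDiff_const.mul hη.1) (hη.fderiv _)
      have := memLp_bdd_mul (h2.memLp 2) mS bS
      simpa only [mul_comm] using this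
    · have h3 := memLp_bdd_mul (hφ.gmem i) mSr (Eventually.of_forall bSr)
      exact memLp_bdd_mul (C := B) h3 hηη.continuous.aestronglyMeasurable
        (Eventually.of_forall hB)
  · have w1 := isWD_comp_real (hφ.wd i) (hφ.mem.locallyIntegrable (by norm_num))
      ((hφ.gmem i).locallyIntegrable (by norm_num)) (hasDerivAt_inv_Sd hd)
      (((continuous_Sd.mul continuous_rt).inv₀ fun t =>
        (mul_pos (Sd_pos hd) (rt_pos hd)).ne').neg) (2 / d ^ 2) (fun t => by
          rw [abs_neg, abs_of_pos (inv_pos.2 (mul_pos (Sd_pos hd) (rt_pos hd)))]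
          exact inv_Sd_rt_le hd)
    have l1 : LocallyIntegrable (fun x => (Sd d (φ x))⁻¹) (volume : Measure R3) := by
      refine (locallyIntegrable_const (d⁻¹ : ℝ)).mono mS ?_
      filter_upwards [bS] with x hx
      rw [Real.norm_eq_abs, Real.norm_of_nonneg (by positivity)]
      exact hx
    have l2 : LocallyIntegrable (fun x => -(Sd d (φ x) * rt d (φ x))⁻¹ * g i x)
        (volume : Measure R3) :=
      (memLp_bdd_mul (hφ.gmem i) mSr (Eventually.of_forall bSr)).locallyIntegrable (by norm_num)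
    have w2 := w1.smooth_smul hηη.1 l1 l2
    simp only [smul_eq_mul] at w2
    refine w2.congr (ae_eq_refl _) (Eventually.of_forall fun x => ?_)
    have hd1 : DifferentiableAt ℝ η x := hη.differentiable x
    have e1 : fderiv ℝ (fun x => η x * η x) x (dir i) = 2 * η x * fderiv ℝ η x (dir i) := by
      rw [fderiv_fun_mul hd1 hd1]
      simp only [add_apply, smul_apply, smul_eq_mul]
      ring
    simp only [e1]

/-- gradient bound for `log (φ + √(φ²+d²))`, uniform in `d`. -/
theorem log_grad_bound (hv : LocallyIntegrable v (volume : Measure R3)) (hφ : H1 φ g)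
    (h0 : ∀ᵐ x, 0 ≤ φ x) (eq : ∀ h k, H1 h k → qf v e φ g h k = 0) (hη : Test η) (hd : 0 < d) :
    Integrable (fun x => η x ^ 2 * ∑ i, (g i x * (rt d (φ x))⁻¹) ^ 2) (volume : Measure R3) ∧
    ∫ x, η x ^ 2 * ∑ i, (g i x * (rt d (φ x))⁻¹) ^ 2 ≤
      16 * (∫ x, ∑ i, (fderiv ℝ η x (dir i)) ^ 2) + 8 * ∫ x, |v x - e| * η x ^ 2 := by
  have hφm : AEStronglyMeasurable φ (volume : Measure R3) := hφ.mem.1
  have mr : AEStronglyMeasurable (fun x => (rt d (φ x))⁻¹) (volume : Measure R3) := by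
    have : Continuous fun t => (rt d t)⁻¹ := continuous_rt.inv₀ fun t => (rt_pos hd).ne'
    exact this.comp_aestronglyMeasurable hφm
  have hH := h1_test hφ h0 hη hd
  have hq := eq _ _ hH
  unfold qf at hq
  -- integrability
  have i1 : ∀ i, MemLp (fun x => η x * (g i x * (rt d (φ x))⁻¹)) 2 (volume : Measure R3) := by
    intro i
    obtain ⟨B, hB⟩ := hη.2.exists_bound_of_continuous hη.continuous
    refine memLp_bdd_mul (C := B) ?_ hη.continuous.aestronglyMeasurable (Eventually.of_forall hB)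
    have := memLp_bdd_mul (C := d⁻¹) (hφ.gmem i) mr (Eventually.of_forall fun x => by
      rw [abs_of_pos (inv_pos.2 (rt_pos hd))]; exact inv_rt_le hd)
    simpa only [mul_comm] using this
  have I1 : Integrable (fun x => η x ^ 2 * ∑ i, (g i x * (rt d (φ x))⁻¹) ^ 2)
      (volume : Measure R3) := by
    have : Integrable (fun x => ∑ i, (η x * (g i x * (rt d (φ x))⁻¹)) ^ 2)
        (volume : Measure R3) := integrable_finsetSum _ fun i _ => (i1 i).integrable_sq
    refine this.congr (Eventually.of_forall fun x => ?_)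
    simp only [Finset.mul_sum, mul_pow]
  refine ⟨I1, ?_⟩
  have I2 : Integrable (fun x => ∑ i, (fderiv ℝ η x (dir i)) ^ 2) (volume : Measure R3) :=
    integrable_finsetSum _ fun i _ => ((hη.fderiv (dir i)).memLp 2).integrable_sq
  have I3 : Integrable (fun x => |v x - e| * η x ^ 2) (volume : Measure R3) := by
    have l : LocallyIntegrable (fun x => |v x - e|) (volume : Measure R3) :=
      fun x => by
        obtain ⟨U, hU, h⟩ := (hv.sub (locallyIntegrable_const e)) x
        exact ⟨U, hU, h.norm⟩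
    have := (hη.mul hη.1).integrable_smul l
    refine this.congr (Eventually.of_forall fun x => ?_)
    simp only [smul_eq_mul]; ring
  have I4 : Integrable (fun x => ∑ i, g i x * (2 * η x * fderiv ℝ η x (dir i) * (Sd d (φ x))⁻¹
        + (η x * η x) * (-(Sd d (φ x) * rt d (φ x))⁻¹ * g i x))) (volume : Measure R3) :=
    integrable_finsetSum _ fun i _ => (hφ.gmem i).integrable_mul (hH.gmem i)
  -- pointwise estimate
  have P1 : ∀ᵐ x, ∑ i, g i x * (2 * η x * fderiv ℝ η x (dir i) * (Sd d (φ x))⁻¹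
        + (η x * η x) * (-(Sd d (φ x) * rt d (φ x))⁻¹ * g i x)) ≤
      4 * (∑ i, (fderiv ℝ η x (dir i)) ^ 2)
        - 1 / 4 * (η x ^ 2 * ∑ i, (g i x * (rt d (φ x))⁻¹) ^ 2) := by
    filter_upwards [h0] with x hx
    rw [Finset.mul_sum, Finset.mul_sum, Finset.mul_sum, ← Finset.sum_sub_distrib]
    refine Finset.sum_le_sum fun i _ => ?_
    set S := (Sd d (φ x))⁻¹ with hS
    set r := (rt d (φ x))⁻¹ with hr
    have e1 : (Sd d (φ x) * rt d (φ x))⁻¹ = S * r := by rw [mul_inv]
    rw [e1]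
    have hSp : 0 < S := inv_pos.2 (Sd_pos hd)
    have hrp : 0 < r := inv_pos.2 (rt_pos hd)
    have hSr : S ≤ r := inv_anti₀ (rt_pos hd) (rt_le_Sd hx)
    have hrS : r ≤ 2 * S := by
      have := inv_anti₀ (Sd_pos hd) (Sd_le (t := φ x) hd)
      rw [mul_inv] at this
      linarith
    set G := g i x
    set D := fderiv ℝ η x (dir i)
    set y := η x
    have k1 : 2 * y * D * S * G ≤ 4 * D ^ 2 + 1 / 4 * (y ^ 2 * (G * S) ^ 2) := by
      nlinarith [sq_nonneg (2 * D - 1 / 2 * (y * (G * S)))]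
    have k2 : y ^ 2 * (G * S) ^ 2 ≤ y ^ 2 * (G * r) ^ 2 := by
      have : S ^ 2 ≤ r ^ 2 := by nlinarith
      nlinarith [mul_le_mul_of_nonneg_left this (mul_nonneg (sq_nonneg y) (sq_nonneg G))]
    have k3 : 1 / 2 * (y ^ 2 * (G * r) ^ 2) ≤ y ^ 2 * G ^ 2 * (S * r) := by
      have : 1 / 2 * r ^ 2 ≤ S * r := by nlinarith
      nlinarith [mul_le_mul_of_nonneg_left this (mul_nonneg (sq_nonneg y) (sq_nonneg G))]
    calc G * (2 * y * D * S + y * y * (-(S * r) * G))
        = 2 * y * D * S * G - y ^ 2 * G ^ 2 * (S * r) := by ring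
      _ ≤ _ := by linarith
  have P2 : ∀ᵐ x, (v x - e) * φ x * ((η x * η x) * (Sd d (φ x))⁻¹) ≤ |v x - e| * η x ^ 2 := by
    filter_upwards [h0] with x hx
    have hS : φ x * (Sd d (φ x))⁻¹ ≤ 1 := by
      rw [← div_eq_mul_inv, div_le_one (Sd_pos hd)]
      unfold Sd
      have := rt_pos (t := φ x) hd
      linarith
    have hS0 : 0 ≤ φ x * (Sd d (φ x))⁻¹ := mul_nonneg hx (inv_pos.2 (Sd_pos hd)).le
    have : (v x - e) * (φ x * (Sd d (φ x))⁻¹) ≤ |v x - e| := by
      have h1 := le_abs_self ((v x - e) * (φ x * (Sd d (φ x))⁻¹))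
      rw [abs_mul, abs_of_nonneg hS0] at h1
      have h2 : |v x - e| * (φ x * (Sd d (φ x))⁻¹) ≤ |v x - e| * 1 :=
        mul_le_mul_of_nonneg_left hS (abs_nonneg _)
      linarith
    nlinarith [mul_le_mul_of_nonneg_right this (sq_nonneg (η x))]
  have I5 : Integrable (fun x => (v x - e) * φ x * ((η x * η x) * (Sd d (φ x))⁻¹))
      (volume : Measure R3) := by
    have mS : AEStronglyMeasurable (fun x => (Sd d (φ x))⁻¹) (volume : Measure R3) := by
      have : Continuous fun t => (Sd d t)⁻¹ := continuous_Sd.inv₀ fun t => (Sd_pos hd).ne'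
      exact this.comp_aestronglyMeasurable hφm
    refine I3.mono (((hv.aestronglyMeasurable.sub aestronglyMeasurable_const).mul hφm).mul
      (((hη.continuous.mul hη.continuous).aestronglyMeasurable).mul mS)) ?_
    filter_upwards [h0] with x hx
    have hS : φ x * (Sd d (φ x))⁻¹ ≤ 1 := by
      rw [← div_eq_mul_inv, div_le_one (Sd_pos hd)]
      unfold Sd
      have := rt_pos (t := φ x) hd
      linarith
    have hS0 : 0 ≤ φ x * (Sd d (φ x))⁻¹ := mul_nonneg hx (inv_pos.2 (Sd_pos hd)).le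
    rw [Real.norm_eq_abs, Real.norm_eq_abs, abs_mul (|v x - e|), abs_abs, abs_of_nonneg (sq_nonneg (η x))]
    calc |(v x - e) * φ x * ((η x * η x) * (Sd d (φ x))⁻¹)|
        = |(v x - e) * (φ x * (Sd d (φ x))⁻¹) * η x ^ 2| := by congr 1; ring
      _ = |v x - e| * (φ x * (Sd d (φ x))⁻¹) * η x ^ 2 := by
          rw [abs_mul, abs_mul, abs_of_nonneg hS0, abs_of_nonneg (sq_nonneg (η x))]
      _ ≤ |v x - e| * 1 * η x ^ 2 := by gcongr
      _ = _ := by ring
  have Q1 := integral_mono_ae I4 ((I2.const_mul 4).sub (I1.const_mul (1 / 4))) P1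
  have Q2 := integral_mono_ae I5 I3 P2
  simp only [Pi.sub_apply] at Q1
  rw [integral_sub (I2.const_mul 4) (I1.const_mul (1 / 4)), integral_const_mul,
    integral_const_mul] at Q1
  beta_reduce at hq
  linarith

theorem span_dir : Submodule.span ℝ (Set.range dir) = ⊤ := by
  have h := (EuclideanSpace.basisFun (Fin 3) ℝ).toBasis.span_eq
  have e : (⇑(EuclideanSpace.basisFun (Fin 3) ℝ).toBasis : Fin 3 → R3) = dir := by
    funext k
    simp [dir]
  rw [e] at h
  exact h

/-- the normalised logarithms `(log (φ + √(φ²+d²)) - log d) / log (1/d)`, `d = e^{-(n+1)}`. -/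
def An (φ : R3 → ℝ) (n : ℕ) (x : R3) : ℝ :=
  (Real.log (Sd (Real.exp (-((n : ℝ) + 1))) (φ x)) + ((n : ℝ) + 1)) / ((n : ℝ) + 1)

theorem An_nonneg {n : ℕ} {x : R3} (hx : 0 ≤ φ x) : 0 ≤ An φ n x := by
  set d := Real.exp (-((n : ℝ) + 1)) with hd
  have hdp : 0 < d := Real.exp_pos _
  unfold An
  rw [← hd]
  refine div_nonneg ?_ (by positivity)
  have h1 : Real.log d ≤ Real.log (Sd d (φ x)) :=
    Real.log_le_log hdp (d_le_rt.trans (rt_le_Sd hx))
  have h2 : Real.log d = -((n : ℝ) + 1) := Real.log_exp _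
  linarith

theorem An_le {n : ℕ} {x : R3} (hx : 0 ≤ φ x) : An φ n x ≤ 1 + 2 * φ x := by
  set d := Real.exp (-((n : ℝ) + 1)) with hd
  have hdp : 0 < d := Real.exp_pos _
  have hd1 : d ≤ 1 := Real.exp_le_one_iff.2 (by have : (0:ℝ) ≤ n := n.cast_nonneg; linarith)
  have hn : (0 : ℝ) < (n : ℝ) + 1 := by positivity
  unfold An
  rw [← hd, div_le_iff₀ hn]
  have h1 : Real.log (Sd d (φ x)) ≤ Sd d (φ x) - 1 := Real.log_le_sub_one_of_pos (Sd_pos hdp)
  have h2 : Sd d (φ x) ≤ 2 * φ x + d := by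
    unfold Sd; linarith [rt_le hdp hx]
  have h3 : 0 ≤ (n : ℝ) * (2 * φ x) := by positivity
  nlinarith

theorem An_tendsto {x : R3} (hx : 0 ≤ φ x) :
    Tendsto (fun n => An φ n x) atTop (𝓝 (if 0 < φ x then 1 else 0)) := by
  have hinv : Tendsto (fun n : ℕ => (1 : ℝ) / ((n : ℝ) + 1)) atTop (𝓝 0) :=
    tendsto_one_div_add_atTop_nhds_zero_nat
  split_ifs with h
  · have lo : ∀ n : ℕ, 1 + Real.log (φ x) * (1 / ((n : ℝ) + 1)) ≤ An φ n x := by
      intro n
      have hdp : 0 < Real.exp (-((n : ℝ) + 1)) := Real.exp_pos _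
      have hn : (0 : ℝ) < (n : ℝ) + 1 := by positivity
      have h1 : Real.log (φ x) ≤ Real.log (Sd (Real.exp (-((n : ℝ) + 1))) (φ x)) :=
        Real.log_le_log h (by unfold Sd; linarith [rt_pos (t := φ x) hdp])
      unfold An
      rw [le_div_iff₀ hn]
      have : (1 + Real.log (φ x) * (1 / ((n : ℝ) + 1))) * ((n : ℝ) + 1)
          = ((n : ℝ) + 1) + Real.log (φ x) := by field_simp
      rw [this]; linarith
    have up : ∀ n : ℕ, An φ n x ≤ 1 + (2 * φ x) * (1 / ((n : ℝ) + 1)) := by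
      intro n
      set d := Real.exp (-((n : ℝ) + 1)) with hd
      have hdp : 0 < d := Real.exp_pos _
      have hd1 : d ≤ 1 := Real.exp_le_one_iff.2 (by have : (0:ℝ) ≤ n := n.cast_nonneg; linarith)
      have hn : (0 : ℝ) < (n : ℝ) + 1 := by positivity
      unfold An
      rw [← hd, div_le_iff₀ hn]
      have h1 : Real.log (Sd d (φ x)) ≤ Sd d (φ x) - 1 := Real.log_le_sub_one_of_pos (Sd_pos hdp)
      have h2 : Sd d (φ x) ≤ 2 * φ x + d := by
        unfold Sd; linarith [rt_le hdp hx]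
      have : (1 + (2 * φ x) * (1 / ((n : ℝ) + 1))) * ((n : ℝ) + 1)
          = ((n : ℝ) + 1) + 2 * φ x := by field_simp
      rw [this]; linarith
    have l1 := (hinv.const_mul (Real.log (φ x))).const_add 1
    have l2 := (hinv.const_mul (2 * φ x)).const_add 1
    simp only [mul_zero, add_zero] at l1 l2
    exact tendsto_of_tendsto_of_tendsto_of_le_of_le l1 l2 lo up
  · have h0 : φ x = 0 := le_antisymm (not_lt.1 h) hx
    have : ∀ n, An φ n x = 0 := by
      intro n
      unfold An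
      rw [h0]
      have : Sd (Real.exp (-((n : ℝ) + 1))) 0 = Real.exp (-((n : ℝ) + 1)) := by
        unfold Sd rt
        rw [zero_pow two_ne_zero, zero_add, zero_add, Real.sqrt_sq (Real.exp_pos _).le]
      rw [this, Real.log_exp]
      simp
    simp only [this]
    exact tendsto_const_nhds

/-- DICHOTOMY: a nonnegative weak solution vanishes a.e. or is positive a.e. -/
theorem pos_dichotomy (hv : LocallyIntegrable v (volume : Measure R3)) (hφ : H1 φ g)
    (h0 : ∀ᵐ x, 0 ≤ φ x) (eq : ∀ h k, H1 h k → qf v e φ g h k = 0) :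
    (∀ᵐ x, 0 < φ x) ∨ (∀ᵐ x, φ x = 0) := by
  have hφm : AEStronglyMeasurable φ (volume : Measure R3) := hφ.mem.1
  set P : R3 → ℝ := fun x => if 0 < φ x then 1 else 0 with hP
  have mP : AEStronglyMeasurable P (volume : Measure R3) := by
    have hm : Measurable fun t : ℝ => if 0 < t then (1 : ℝ) else 0 :=
      Measurable.ite measurableSet_Ioi measurable_const measurable_const
    exact (hm.comp_aemeasurable hφm.aemeasurable).aestronglyMeasurable
  have lP : LocallyIntegrable P (volume : Measure R3) := by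
    refine (locallyIntegrable_const (1 : ℝ)).mono mP (Eventually.of_forall fun x => ?_)
    simp only [hP]
    split_ifs <;> simp
  have key : ∀ i, IsWD (volume : Measure R3) (dir i) P (fun _ => 0) := by
    intro i ψ hψ
    simp only [smul_zero, integral_zero, neg_zero]
    -- weak derivative of the approximations
    have wn : ∀ n : ℕ, IsWD (volume : Measure R3) (dir i) (An φ n)
        (fun x => ((n : ℝ) + 1)⁻¹ * ((rt (Real.exp (-((n : ℝ) + 1))) (φ x))⁻¹ * g i x)) := by
      intro n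
      set d := Real.exp (-((n : ℝ) + 1)) with hd
      have hdp : 0 < d := Real.exp_pos _
      have w := isWD_comp_real (Φ := fun t => (Real.log (Sd d t) + ((n : ℝ) + 1)) / ((n : ℝ) + 1))
        (Φ' := fun t => (rt d t)⁻¹ / ((n : ℝ) + 1)) (hφ.wd i)
        (hφ.mem.locallyIntegrable (by norm_num))
        ((hφ.gmem i).locallyIntegrable (by norm_num))
        (fun t => ((hasDerivAt_log_Sd hdp t).add_const _).div_const _)
        ((continuous_rt.inv₀ fun t => (rt_pos hdp).ne').div_const _) (d⁻¹)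
        (fun t => by
          have hn : (1 : ℝ) ≤ (n : ℝ) + 1 := by have : (0:ℝ) ≤ n := n.cast_nonneg; linarith
          rw [abs_of_pos (div_pos (inv_pos.2 (rt_pos hdp)) (by positivity))]
          exact (div_le_self (inv_pos.2 (rt_pos hdp)).le hn).trans (inv_rt_le hdp))
      refine w.congr (ae_eq_refl _) (Eventually.of_forall fun x => ?_)
      simp only [div_eq_mul_inv]; ring
    have T1 : Tendsto (fun n => ∫ x, (fderiv ℝ ψ x (dir i)) • An φ n x) atTop
        (𝓝 (∫ x, (fderiv ℝ ψ x (dir i)) • P x)) := by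
      refine tendsto_integral_of_dominated_convergence
        (fun x => ‖fderiv ℝ ψ x (dir i)‖ * (1 + 2 * ‖φ x‖)) ?_ ?_ ?_ ?_
      · intro n
        have : AEStronglyMeasurable (An φ n) (volume : Measure R3) := by
          have hc : Continuous fun t => (Real.log (Sd (Real.exp (-((n : ℝ) + 1))) t)
              + ((n : ℝ) + 1)) / ((n : ℝ) + 1) :=
            ((continuous_Sd.log fun t => (Sd_pos (Real.exp_pos _)).ne').add
              continuous_const).div_const _
          exact hc.comp_aestronglyMeasurable hφm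
        exact (hψ.fderiv _).continuous.aestronglyMeasurable.smul this
      · have l : LocallyIntegrable (fun x => 1 + 2 * ‖φ x‖) (volume : Measure R3) :=
          (locallyIntegrable_const _).add
            (locInt_norm_smul (hφ.mem.locallyIntegrable (by norm_num)) 2)
        have := ((hψ.fderiv (dir i)).integrable_smul l).norm
        refine this.congr (Eventually.of_forall fun x => ?_)
        simp only [norm_smul]
        rw [Real.norm_of_nonneg (by positivity : 0 ≤ 1 + 2 * ‖φ x‖)]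
      · intro n
        filter_upwards [h0] with x hx
        rw [norm_smul]
        refine mul_le_mul_of_nonneg_left ?_ (norm_nonneg _)
        rw [Real.norm_of_nonneg (An_nonneg hx), Real.norm_of_nonneg hx]
        exact An_le hx
      · filter_upwards [h0] with x hx
        exact (An_tendsto hx).const_smul _
    obtain ⟨η, hη, hη0, hη1, hη2⟩ : ∃ η : R3 → ℝ, Test η ∧ (∀ x, 0 ≤ η x) ∧ (∀ x, η x ≤ 1) ∧
        ∀ x ∈ tsupport ψ, η x = 1 := by
      obtain ⟨η, a1, a2, -, a3, a4⟩ := exists_cutoff (K := tsupport ψ) (U := Set.univ)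
        hψ.2 isOpen_univ (Set.subset_univ _)
      exact ⟨η, ⟨a1, a2⟩, fun x => (a4 x).1, fun x => (a4 x).2,
        fun x hx => a3.self_of_nhdsSet x hx⟩
    obtain ⟨B, hB⟩ := hψ.2.exists_bound_of_continuous hψ.continuous
    have hB0 : 0 ≤ B := (norm_nonneg _).trans (hB 0)
    set K := 16 * (∫ x, ∑ i, (fderiv ℝ η x (dir i)) ^ 2) + 8 * ∫ x, |v x - e| * η x ^ 2 with hK
    have T2 : Tendsto (fun n : ℕ => ∫ x, ψ x • (((n : ℝ) + 1)⁻¹ *
        ((rt (Real.exp (-((n : ℝ) + 1))) (φ x))⁻¹ * g i x))) atTop (𝓝 0) := by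
      have hinv : Tendsto (fun n : ℕ => (B * ((∫ x, η x ^ 2) + K)) * (1 / ((n : ℝ) + 1))) atTop
          (𝓝 ((B * ((∫ x, η x ^ 2) + K)) * 0)) :=
        (tendsto_one_div_add_atTop_nhds_zero_nat).const_mul _
      rw [mul_zero] at hinv
      refine squeeze_zero_norm (fun n => ?_) hinv
      set d := Real.exp (-((n : ℝ) + 1)) with hd
      have hdp : 0 < d := Real.exp_pos _
      obtain ⟨J1, J2⟩ := log_grad_bound hv hφ h0 eq hη hdp
      rw [← hK] at J2
      have J3 : Integrable (fun x => η x ^ 2) (volume : Measure R3) := (hη.memLp 2).integrable_sq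
      have hn : (0 : ℝ) < (n : ℝ) + 1 := by positivity
      calc ‖∫ x, ψ x • (((n : ℝ) + 1)⁻¹ * ((rt d (φ x))⁻¹ * g i x))‖
          ≤ ∫ x, (B * ((n : ℝ) + 1)⁻¹) * (η x ^ 2 + η x ^ 2 *
            ∑ i, (g i x * (rt d (φ x))⁻¹) ^ 2) := by
            refine norm_integral_le_of_norm_le ((J3.add J1).const_mul _)
              (Eventually.of_forall fun x => ?_)
            by_cases hx : x ∈ tsupport ψ
            · rw [hη2 x hx, norm_smul, norm_mul, Real.norm_of_nonneg (inv_pos.2 hn).le]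
              have h1 : ‖(rt d (φ x))⁻¹ * g i x‖ ≤
                  1 ^ 2 + 1 ^ 2 * ∑ i, (g i x * (rt d (φ x))⁻¹) ^ 2 := by
                have h2 : (g i x * (rt d (φ x))⁻¹) ^ 2 ≤
                    ∑ i, (g i x * (rt d (φ x))⁻¹) ^ 2 :=
                  Finset.single_le_sum (f := fun i => (g i x * (rt d (φ x))⁻¹) ^ 2)
                    (fun j _ => sq_nonneg _) (Finset.mem_univ i)
                rw [mul_comm (rt d (φ x))⁻¹, Real.norm_eq_abs]
                have h3 := sq_nonneg (|g i x * (rt d (φ x))⁻¹| - 1)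
                have h4 := sq_abs (g i x * (rt d (φ x))⁻¹)
                nlinarith [abs_nonneg (g i x * (rt d (φ x))⁻¹)]
              calc ‖ψ x‖ * (((n : ℝ) + 1)⁻¹ * ‖(rt d (φ x))⁻¹ * g i x‖)
                  ≤ B * (((n : ℝ) + 1)⁻¹ * (1 ^ 2 + 1 ^ 2 *
                    ∑ i, (g i x * (rt d (φ x))⁻¹) ^ 2)) := by
                    refine mul_le_mul (hB x) ?_ (by positivity) hB0
                    exact mul_le_mul_of_nonneg_left h1 (inv_pos.2 hn).le
                _ = _ := by ring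
            · rw [image_eq_zero_of_notMem_tsupport hx, zero_smul, norm_zero]
              have : 0 ≤ ∑ i, (g i x * (rt d (φ x))⁻¹) ^ 2 :=
                Finset.sum_nonneg fun j _ => sq_nonneg _
              positivity
        _ = (B * ((n : ℝ) + 1)⁻¹) * ((∫ x, η x ^ 2) + ∫ x, η x ^ 2 *
            ∑ i, (g i x * (rt d (φ x))⁻¹) ^ 2) := by
            rw [integral_const_mul, integral_add J3 J1]
        _ ≤ (B * ((n : ℝ) + 1)⁻¹) * ((∫ x, η x ^ 2) + K) := by gcongr
        _ = _ := by rw [one_div]; ring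
    have T3 : Tendsto (fun n => ∫ x, (fderiv ℝ ψ x (dir i)) • An φ n x) atTop (𝓝 0) := by
      have := T2.neg
      rw [neg_zero] at this
      exact this.congr fun n => (wn n ψ hψ).symm
    exact tendsto_nhds_unique T1 T3
  obtain ⟨c, hc⟩ := ae_const_of_isWD_zero span_dir lP key
  by_cases hc1 : c = 0
  · right
    filter_upwards [hc, h0] with x hx hx0
    simp only [hP] at hx
    by_contra hne
    rw [if_pos (lt_of_le_of_ne hx0 (Ne.symm hne)), hc1] at hx
    exact one_ne_zero hx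
  · left
    filter_upwards [hc] with x hx
    simp only [hP] at hx
    by_contra hne
    rw [if_neg hne] at hx
    exact hc1 hx.symm

end

end Vale.Agent.P363.H95
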