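import Vale.Agent.P363.H95.OfTen

/-! The repulsion form of `ofTen` states. -/

namespace Vale.Agent.P363.H95

open MeasureTheory Filter Topology
open Vale.Agent.P363.Stmt Vale.Agent.P363.R.Sob Vale.Agent.P363.H382 Vale.Agent.P363.R.Top
open Vale.Agent.P363.H518 (coef pcoef memLp_conj integrable_coef memLp_mul_prod)
open scoped ContDiff ENNReal ComplexConjugate

set_option linter.unusedSectionVars false

noncomputable section

/-- sesquilinear form of the electron repulsion. -/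
def wForm {N : ℕ} (Φ Ψ : ElectronState N) : ℂ :=
  ∑ s, ∫ x, ((rep x : ℝ) : ℂ) * (conj (Φ.amp s x) * Ψ.amp s x)

section pair

variable {N : ℕ} (Φ Ψ : ElectronState N)

theorem conj_mul_perm (σ : Equiv.Perm (Fin N)) (s : Spn N) :
    ∀ᵐ x, conj (Φ.amp (s ∘ σ) (x ∘ σ)) * Ψ.amp (s ∘ σ) (x ∘ σ) =
      conj (Φ.amp s x) * Ψ.amp s x := by
  filter_upwards [amp_perm Φ σ s, amp_perm Ψ σ s] with x h1 h2
  rw [h1, h2, map_mul]
  rcases Int.units_eq_one_or (Equiv.Perm.sign σ) with h | h <;> simp [h]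

theorem int_conj_perm (W : Conf N → ℂ) (σ : Equiv.Perm (Fin N)) (s : Spn N) :
    ∫ x, W (x ∘ σ) * (conj (Φ.amp s x) * Ψ.amp s x) =
      ∫ x, W x * (conj (Φ.amp (s ∘ σ) x) * Ψ.amp (s ∘ σ) x) := by
  rw [← integral_perm σ (fun x => W x * (conj (Φ.amp (s ∘ σ) x) * Ψ.amp (s ∘ σ) x))]
  refine integral_congr_ae ?_
  filter_upwards [conj_mul_perm Φ Ψ σ s] with x hx
  rw [hx]

theorem integrable_conj_perm (W : Conf N → ℂ) (σ : Equiv.Perm (Fin N)) (s : Spn N) :
    Integrable (fun x => W (x ∘ σ) * (conj (Φ.amp s x) * Ψ.amp s x)) ↔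
      Integrable (fun x => W x * (conj (Φ.amp (s ∘ σ) x) * Ψ.amp (s ∘ σ) x)) := by
  rw [← integrable_perm_iff σ (f := fun x => W x * (conj (Φ.amp (s ∘ σ) x) * Ψ.amp (s ∘ σ) x))]
  refine integrable_congr ?_
  filter_upwards [conj_mul_perm Φ Ψ σ s] with x hx
  rw [hx]

theorem sum_conj_perm (W : Conf N → ℂ) (σ : Equiv.Perm (Fin N)) :
    ∑ s, ∫ x, W (x ∘ σ) * (conj (Φ.amp s x) * Ψ.amp s x) =
      ∑ s, ∫ x, W x * (conj (Φ.amp s x) * Ψ.amp s x) := by
  rw [← Equiv.sum_comp (spinE σ) (fun s => ∫ x, W x * (conj (Φ.amp s x) * Ψ.amp s x))]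
  exact Finset.sum_congr rfl fun s _ => int_conj_perm Φ Ψ W σ s

end pair

theorem exists_perm_pair {n : ℕ} {i k : Fin (n + 2)} (h : i ≠ k) :
    ∃ σ : Equiv.Perm (Fin (n + 2)), σ 0 = i ∧ σ 1 = k := by
  refine ⟨Equiv.swap 0 i * Equiv.swap 1 (Equiv.swap 0 i k), ?_, ?_⟩
  · rw [Equiv.Perm.mul_apply]
    have h0 : (0 : Fin (n + 2)) ≠ 1 := by simp
    have h1 : (0 : Fin (n + 2)) ≠ Equiv.swap 0 i k := by
      intro hh
      have := congrArg (Equiv.swap 0 i) hh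
      simp only [Equiv.swap_apply_left, Equiv.swap_apply_self] at this
      exact h this
    rw [Equiv.swap_apply_of_ne_of_ne h0 h1, Equiv.swap_apply_left]
  · rw [Equiv.Perm.mul_apply, Equiv.swap_apply_left, Equiv.swap_apply_self]

theorem sum_card_Ioi (N : ℕ) : ∑ i : Fin N, ((Finset.Ioi i).card : ℂ) = (N : ℂ) * (N - 1) / 2 := by
  have h : ∀ N : ℕ, ∑ i : Fin N, ((N - 1 - (i : ℕ) : ℕ) : ℂ) = (N : ℂ) * (N - 1) / 2 := by
    intro N
    rw [Fin.sum_univ_eq_sum_range (fun i => ((N - 1 - i : ℕ) : ℂ)) N]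
    rw [Finset.sum_range_reflect (fun i => (i : ℂ)) N]
    rw [← Nat.cast_sum]
    have := Finset.sum_range_id_mul_two N
    have h2 : (((∑ i ∈ Finset.range N, i) * 2 : ℕ) : ℂ) = ((N * (N - 1) : ℕ) : ℂ) := by
      rw [this]
    rw [Nat.cast_mul] at h2
    rcases Nat.eq_zero_or_pos N with h0 | h0
    · subst h0; simp
    · rw [Nat.cast_mul, Nat.cast_sub h0] at h2
      push_cast at h2 ⊢
      linear_combination (1 / 2) * h2
  rw [← h N]
  exact Finset.sum_congr rfl fun i _ => by rw [Fin.card_Ioi]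

/-- reduction of the repulsion form to the first two electrons. -/
theorem wForm_eq {n : ℕ} (Φ Ψ : ElectronState (n + 2))
    (hint : ∀ s, Integrable (fun x : Conf (n + 2) =>
      ((1 / ‖x 0 - x 1‖ : ℝ) : ℂ) * (conj (Φ.amp s x) * Ψ.amp s x))) :
    wForm Φ Ψ = ((n + 2 : ℂ) * (n + 1) / 2) * ∑ s, ∫ x : Conf (n + 2),
      ((1 / ‖x 0 - x 1‖ : ℝ) : ℂ) * (conj (Φ.amp s x) * Ψ.amp s x) := by
  have hI : ∀ i k : Fin (n + 2), i ≠ k → ∀ s, Integrable (fun x : Conf (n + 2) =>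
      ((1 / ‖x i - x k‖ : ℝ) : ℂ) * (conj (Φ.amp s x) * Ψ.amp s x)) := by
    intro i k hik s
    obtain ⟨σ, h0, h1⟩ := exists_perm_pair hik
    have := (integrable_conj_perm Φ Ψ (fun x : Conf (n + 2) => ((1 / ‖x 0 - x 1‖ : ℝ) : ℂ)) σ s).2
      (hint _)
    refine this.congr (Eventually.of_forall fun x => ?_)
    simp only [Function.comp_apply, h0, h1]
  have hS : ∀ i k : Fin (n + 2), i ≠ k → ∑ s, ∫ x : Conf (n + 2),
      ((1 / ‖x i - x k‖ : ℝ) : ℂ) * (conj (Φ.amp s x) * Ψ.amp s x) =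
      ∑ s, ∫ x : Conf (n + 2), ((1 / ‖x 0 - x 1‖ : ℝ) : ℂ) *
        (conj (Φ.amp s x) * Ψ.amp s x) := by
    intro i k hik
    obtain ⟨σ, h0, h1⟩ := exists_perm_pair hik
    have := sum_conj_perm Φ Ψ (fun x : Conf (n + 2) => ((1 / ‖x 0 - x 1‖ : ℝ) : ℂ)) σ
    rw [← this]
    refine Finset.sum_congr rfl fun s _ => ?_
    simp only [Function.comp_apply, h0, h1]
  set A := ∑ s, ∫ x : Conf (n + 2), ((1 / ‖x 0 - x 1‖ : ℝ) : ℂ) *
        (conj (Φ.amp s x) * Ψ.amp s x) with hA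
  unfold wForm
  have h1 : ∀ s, ∫ x : Conf (n + 2), ((rep x : ℝ) : ℂ) * (conj (Φ.amp s x) * Ψ.amp s x) =
      ∑ i, ∑ k ∈ Finset.Ioi i, ∫ x : Conf (n + 2), ((1 / ‖x i - x k‖ : ℝ) : ℂ) *
        (conj (Φ.amp s x) * Ψ.amp s x) := by
    intro s
    have h2 : ∀ x : Conf (n + 2), ((rep x : ℝ) : ℂ) * (conj (Φ.amp s x) * Ψ.amp s x) =
        ∑ i, ∑ k ∈ Finset.Ioi i, ((1 / ‖x i - x k‖ : ℝ) : ℂ) *
          (conj (Φ.amp s x) * Ψ.amp s x) := by
      intro x
      unfold rep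
      rw [Complex.ofReal_sum, Finset.sum_mul]
      refine Finset.sum_congr rfl fun i _ => ?_
      rw [Complex.ofReal_sum, Finset.sum_mul]
    simp only [h2]
    rw [integral_finsetSum]
    · refine Finset.sum_congr rfl fun i _ => ?_
      rw [integral_finsetSum]
      intro k hk
      exact hI i k (ne_of_lt (Finset.mem_Ioi.1 hk)) s
    · intro i _
      exact integrable_finsetSum _ fun k hk => hI i k (ne_of_lt (Finset.mem_Ioi.1 hk)) s
  rw [Finset.sum_congr rfl fun s _ => h1 s, Finset.sum_comm]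
  have h3 : ∀ i : Fin (n + 2), ∑ s, ∑ k ∈ Finset.Ioi i, ∫ x : Conf (n + 2),
      ((1 / ‖x i - x k‖ : ℝ) : ℂ) * (conj (Φ.amp s x) * Ψ.amp s x) =
      ((Finset.Ioi i).card : ℂ) * A := by
    intro i
    rw [Finset.sum_comm, Finset.sum_congr rfl fun k hk => hS i k (ne_of_lt (Finset.mem_Ioi.1 hk)),
      Finset.sum_const, nsmul_eq_mul]
  rw [Finset.sum_congr rfl fun i _ => h3 i, ← Finset.sum_mul, sum_card_Ioi]
  push_cast
  ring

/-! ### integrals over `Conf (n + 2)` -/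

/-- `((r, t), y) ↦ cons r (cons t y)` -/
def cons2 {n : ℕ} (z : (R3 × R3) × Conf n) : Conf (n + 2) :=
  Fin.cons z.1.1 (Fin.cons z.1.2 z.2 : Conf (n + 1))

theorem cons2_mp {n : ℕ} : MeasurePreserving (cons2 : (R3 × R3) × Conf n → Conf (n + 2))
    (volume : Measure ((R3 × R3) × Conf n)) volume := by
  have h1 : MeasurePreserving (MeasurableEquiv.prodAssoc : (R3 × R3) × Conf n ≃ᵐ R3 × R3 × Conf n)
      volume volume := volume_preserving_prodAssoc
  have h2 : MeasurePreserving (Prod.map id (consE : R3 × Conf n → Conf (n + 1)))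
      (volume : Measure (R3 × R3 × Conf n)) (volume : Measure (R3 × Conf (n + 1))) :=
    (MeasurePreserving.id volume).prod consE_mp
  exact consE_mp.comp (h2.comp h1)

theorem cons2_emb {n : ℕ} :
    MeasurableEmbedding (cons2 : (R3 × R3) × Conf n → Conf (n + 2)) := by
  have h1 : MeasurableEmbedding
      (MeasurableEquiv.prodAssoc : (R3 × R3) × Conf n ≃ᵐ R3 × R3 × Conf n) :=
    MeasurableEquiv.measurableEmbedding _
  have h2 : MeasurableEmbedding (Prod.map (id : R3 → R3) (consE : R3 × Conf n → Conf (n + 1))) :=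
    MeasurableEmbedding.id.prodMap (consE (n := n)).toHomeomorph.measurableEmbedding
  exact ((consE (n := n + 1)).toHomeomorph.measurableEmbedding).comp (h2.comp h1)

theorem tp_cons2 {n : ℕ} (w : Fin (n + 2) → R3 → ℂ) (z : (R3 × R3) × Conf n) :
    tp w (cons2 z) = w 0 z.1.1 * w 1 z.1.2 * tp (fun j => w j.succ.succ) z.2 := by
  unfold cons2
  rw [tp_cons, tp_cons]
  simp only [Fin.succ_zero_eq_one]
  ring

theorem integrable_tp {N : ℕ} {w : Fin N → R3 → ℂ} (hw : ∀ j, Integrable (w j) volume) :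
    Integrable (tp w) (volume : Measure (Conf N)) :=
  Integrable.fintype_prod (μ := fun _ : Fin N => (volume : Measure R3)) hw

/-- Coulomb pairing of two densities on `R3 × R3`. -/
def coul (f g : R3 → ℂ) : ℂ := ∫ z : R3 × R3, ((1 / ‖z.1 - z.2‖ : ℝ) : ℂ) * (f z.1 * g z.2)

theorem kernel_tp {n : ℕ} (w w' : Fin (n + 2) → R3 → ℂ) (z : (R3 × R3) × Conf n) :
    ((1 / ‖cons2 z 0 - cons2 z 1‖ : ℝ) : ℂ) * (conj (tp w (cons2 z)) * tp w' (cons2 z)) =
      (((1 / ‖z.1.1 - z.1.2‖ : ℝ) : ℂ) * ((conj (w 0 z.1.1) * w' 0 z.1.1) *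
        (conj (w 1 z.1.2) * w' 1 z.1.2))) *
        tp (fun j y => conj (w j.succ.succ y) * w' j.succ.succ y) z.2 := by
  rw [tp_cons2, tp_cons2]
  have e0 : cons2 z 0 = z.1.1 := rfl
  have e1 : cons2 z 1 = z.1.2 := rfl
  rw [e0, e1, map_mul, map_mul, conj_tp]
  rw [← tp_mul]
  ring

theorem integrable_kernel_tp {n : ℕ} {w w' : Fin (n + 2) → R3 → ℂ}
    (hw : ∀ j, MemLp (w j) 2 volume) (hw' : ∀ j, MemLp (w' j) 2 volume)
    (hK : Integrable (fun z : R3 × R3 => ((1 / ‖z.1 - z.2‖ : ℝ) : ℂ) *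
      ((conj (w 0 z.1) * w' 0 z.1) * (conj (w 1 z.2) * w' 1 z.2)))) :
    Integrable (fun x : Conf (n + 2) => ((1 / ‖x 0 - x 1‖ : ℝ) : ℂ) *
      (conj (tp w x) * tp w' x)) := by
  rw [← cons2_mp.integrable_comp_emb cons2_emb]
  have h0 : ∀ j : Fin n, Integrable (fun y => conj (w j.succ.succ y) * w' j.succ.succ y)
      (volume : Measure R3) := fun j => integrable_coef (hw _) (hw' _)
  have h1 : Integrable (tp (fun j : Fin n => fun y => conj (w j.succ.succ y) * w' j.succ.succ y))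
      (volume : Measure (Conf n)) := integrable_tp h0
  have h2 := hK.mul_prod (μ := (volume : Measure (R3 × R3))) (ν := (volume : Measure (Conf n))) h1
  refine h2.congr (Eventually.of_forall fun z => ?_)
  simp only [Function.comp_apply]
  rw [kernel_tp]

theorem integral_kernel_tp {n : ℕ} (w w' : Fin (n + 2) → R3 → ℂ) :
    ∫ x : Conf (n + 2), ((1 / ‖x 0 - x 1‖ : ℝ) : ℂ) * (conj (tp w x) * tp w' x) =
      coul (fun r => conj (w 0 r) * w' 0 r) (fun r => conj (w 1 r) * w' 1 r) *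
        ∏ j : Fin n, coef volume (w j.succ.succ) (w' j.succ.succ) := by
  rw [← cons2_mp.integral_comp cons2_emb]
  simp only [kernel_tp]
  have h := integral_prod_mul (μ := (volume : Measure (R3 × R3)))
    (ν := (volume : Measure (Conf n)))
    (fun z : R3 × R3 => ((1 / ‖z.1 - z.2‖ : ℝ) : ℂ) * ((conj (w 0 z.1) * w' 0 z.1) *
        (conj (w 1 z.2) * w' 1 z.2)))
    (tp (fun j : Fin n => fun y => conj (w j.succ.succ y) * w' j.succ.succ y))
  refine h.trans ?_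
  rw [integral_tp]
  rfl

end

end Vale.Agent.P363.H95
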