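import Vale.Agent.P363.H95.RepTen
import Vale.Agent.P363.R.H10.Table
import Vale.Agent.P363.R2.h518.HydroInst

/-! (T4) for the hydrogen orbitals: the repulsion form of `ofTen` states is `WF eri`. -/

namespace Vale.Agent.P363.H95

open MeasureTheory Filter Topology
open Vale.Agent.P363.Stmt Vale.Agent.P363.R.Sob Vale.Agent.P363.H382 Vale.Agent.P363.R.Top
open Vale.Agent.P363.H518 (coef corb)
open Vale.Agent.P363.H979.CI (Ten Anti WF vel)
open Vale.Agent.P363.R.H10 (eri integrable_eri)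
open scoped ContDiff ENNReal ComplexConjugate

noncomputable section

theorem kernel_corb (a b c d : Fin 5) (z : R3 × R3) :
    ((1 / ‖z.1 - z.2‖ : ℝ) : ℂ) * ((conj (corb a z.1) * corb b z.1) *
      (conj (corb c z.2) * corb d z.2)) =
    ((orb a z.1 * orb b z.1 * (orb c z.2 * orb d z.2) / ‖z.1 - z.2‖ : ℝ) : ℂ) := by
  unfold corb
  simp only [Complex.conj_ofReal]
  push_cast
  ring

theorem coulInt_corb : CoulInt corb := by
  intro a b c d
  have h := (integrable_eri a b c d).ofReal (𝕜 := ℂ)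
  refine h.congr (Eventually.of_forall fun z => ?_)
  exact (kernel_corb a b c d z).symm

theorem Dc_corb (a b c d : Fin 5) : Dc corb a b c d = ((eri a b c d : ℝ) : ℂ) := by
  unfold Dc coul
  simp only [kernel_corb]
  have h := integral_prod _ (integrable_eri a b c d)
  rw [eri, ← h]
  exact integral_ofReal (𝕜 := ℂ) (μ := (volume : Measure R3).prod (volume : Measure R3))
    (f := fun z : R3 × R3 => orb a z.1 * orb b z.1 * (orb c z.2 * orb d z.2) / ‖z.1 - z.2‖)

theorem orth_corb : Orth corb := fun a b => by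
  by_cases h : a = b
  · subst h
    rw [if_pos rfl]
    exact H518.hydro.one a
  · rw [if_neg h]
    exact H518.hydro.orth a b h

theorem wForm_self {N : ℕ} (Ψ : ElectronState N) :
    wForm Ψ Ψ = ((∑ s, ∫ x, rep x * ‖Ψ.amp s x‖ ^ 2 : ℝ) : ℂ) := by
  unfold wForm
  rw [Complex.ofReal_sum]
  refine Finset.sum_congr rfl fun s _ => ?_
  rw [← integral_complex_ofReal]
  congr 1; funext x
  rw [Complex.conj_mul']
  push_cast
  ring

variable {g : Fin 5 → Fin 3 → R3 → ℂ} {H : OneBody corb g} {n : ℕ}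
  {c d : (Fin (n + 2) → Fin 5 × Fin 2) → ℂ} {hc : AntiT c} {hd : AntiT d}

theorem velc_corb (p q p' q' : Fin 5 × Fin 2) :
    velc (Dc corb) p q p' q' = ((vel eri p q p' q' : ℝ) : ℂ) := by
  unfold velc vel
  split_ifs
  · exact Dc_corb _ _ _ _
  · simp

/-- (T4), sesquilinear. -/
theorem wForm_ofTen_corb :
    wForm (ofTen H c hc) (ofTen H d hd) = ((n + 2 : ℂ) * (n + 1) / 2) *
      ∑ J : Fin n → Fin 5 × Fin 2, ∑ p, ∑ q, ∑ p', ∑ q', ((vel eri p q p' q' : ℝ) : ℂ) *
        (conj (c (Fin.cons p (Fin.cons q J : Fin (n + 1) → Fin 5 × Fin 2))) *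
          d (Fin.cons p' (Fin.cons q' J : Fin (n + 1) → Fin 5 × Fin 2))) := by
  rw [wForm_ofTen orth_corb coulInt_corb]
  simp only [velc_corb]

/-- (T4) the repulsion energy of an `ofTen` state. -/
theorem rep_ofTen : ∑ s, ∫ x, rep x * ‖(ofTen H c hc).amp s x‖ ^ 2 = WF eri c := by
  have h := wForm_self (ofTen H c hc)
  rw [wForm_ofTen_corb] at h
  have h2 := congrArg Complex.re h
  rw [Complex.ofReal_re] at h2
  rw [← h2]
  unfold WF
  have e : ((n + 2 : ℂ) * (n + 1) / 2) = (((n + 2 : ℝ) * (n + 1) / 2 : ℝ) : ℂ) := by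
    push_cast; ring
  rw [e, Complex.re_ofReal_mul]
  congr 1
  simp only [Complex.re_sum, Complex.re_ofReal_mul]

end

end Vale.Agent.P363.H95
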