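import Vale.Agent.P363.H382.Energy
import Vale.Agent.P363.R2.h518.Contract

/-! Tensor products `∏ⱼ wⱼ(xⱼ)` of one-body functions on `Conf N`: square integrability, inner
products, weak derivatives. -/

namespace Vale.Agent.P363.H95

open MeasureTheory Filter Topology
open Vale.Agent.P363.Stmt Vale.Agent.P363.R.Sob Vale.Agent.P363.H382
open Vale.Agent.P363.H518 (coef memLp_conj integrable_coef memLp_mul_prod insE insE_mp insE_dir
  insE_apply)
open scoped ContDiff ENNReal ComplexConjugate

set_option linter.unusedSectionVars false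

noncomputable section

/-- tensor product of one-body functions. -/
def tp {N : ℕ} (w : Fin N → R3 → ℂ) (x : Conf N) : ℂ := ∏ j, w j (x j)

variable {N : ℕ}

theorem aesm_tp {w : Fin N → R3 → ℂ} (hw : ∀ j, AEStronglyMeasurable (w j) volume) :
    AEStronglyMeasurable (tp w) (volume : Measure (Conf N)) := by
  have h : ∀ j, AEStronglyMeasurable (fun x : Conf N => w j (x j)) volume := fun j =>
    (hw j).comp_quasiMeasurePreserving (Measure.quasiMeasurePreserving_eval _ j)
  have := Finset.aestronglyMeasurable_fun_prod Finset.univ fun j _ => h j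
  exact this

theorem memLp_tp {w : Fin N → R3 → ℂ} (hw : ∀ j, MemLp (w j) 2 volume) :
    MemLp (tp w) 2 (volume : Measure (Conf N)) := by
  rw [memLp_two_iff_integrable_sq_norm (aesm_tp fun j => (hw j).1)]
  have h : ∀ j, Integrable (fun x : R3 => ‖w j x‖ ^ 2) volume := fun j =>
    (memLp_two_iff_integrable_sq_norm (hw j).1).1 (hw j)
  have := Integrable.fintype_prod (μ := fun _ : Fin N => (volume : Measure R3)) h
  refine this.congr (Eventually.of_forall fun x => ?_)
  simp only [tp, norm_prod, Finset.prod_pow]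

/-- integral of a product. -/
theorem integral_tp (w : Fin N → R3 → ℂ) : ∫ x : Conf N, tp w x = ∏ j, ∫ x, w j x :=
  integral_fintype_prod_volume_eq_prod w

theorem conj_tp (w : Fin N → R3 → ℂ) (x : Conf N) :
    conj (tp w x) = tp (fun j y => conj (w j y)) x := by
  simp [tp]

theorem tp_mul (w w' : Fin N → R3 → ℂ) (x : Conf N) :
    tp w x * tp w' x = tp (fun j y => w j y * w' j y) x := by
  simp [tp, Finset.prod_mul_distrib]

/-- inner product of tensor products. -/
theorem coef_tp (w w' : Fin N → R3 → ℂ) :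
    coef (volume : Measure (Conf N)) (tp w) (tp w') = ∏ j, coef volume (w j) (w' j) := by
  unfold coef
  rw [← integral_tp]
  congr 1
  funext x
  rw [conj_tp, tp_mul]

theorem tp_insertNth {n : ℕ} (i : Fin (n + 1)) (w : Fin (n + 1) → R3 → ℂ) (r : R3) (y : Conf n) :
    tp w (i.insertNth (α := fun _ => R3) r y) = w i r * tp (fun j => w (i.succAbove j)) y := by
  unfold tp
  rw [Fin.prod_univ_succAbove _ i]
  simp

theorem tp_cons {n : ℕ} (w : Fin (n + 1) → R3 → ℂ) (r : R3) (y : Conf n) :
    tp w (Fin.cons r y : Conf (n + 1)) = w 0 r * tp (fun j => w j.succ) y := by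
  unfold tp
  rw [Fin.prod_univ_succ]
  simp

theorem tp_perm (σ : Equiv.Perm (Fin N)) (w : Fin N → R3 → ℂ) (x : Conf N) :
    tp (fun j => w (σ j)) (x ∘ σ) = tp w x := by
  unfold tp
  exact Equiv.prod_comp σ (fun j => w j (x j))

/-! ### weak derivative of a product on a product space -/

section prod

variable {E₁ E₂ : Type*} [NormedAddCommGroup E₁] [NormedSpace ℝ E₁] [FiniteDimensional ℝ E₁]
  [MeasurableSpace E₁] [BorelSpace E₁]
  [NormedAddCommGroup E₂] [NormedSpace ℝ E₂] [FiniteDimensional ℝ E₂]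
  [MeasurableSpace E₂] [BorelSpace E₂]
variable {μ : Measure E₁} {ν : Measure E₂} [μ.IsAddHaarMeasure] [ν.IsAddHaarMeasure]

theorem test_slice {φ : E₁ × E₂ → ℝ} (h : Test φ) (y : E₂) : Test (fun x => φ (x, y)) := by
  refine ⟨h.1.comp (contDiff_id.prodMk contDiff_const), ?_⟩
  have hK : IsCompact (Prod.fst '' tsupport φ) := h.2.isCompact.image continuous_fst
  refine HasCompactSupport.intro hK fun x hx => ?_
  by_contra hne
  exact hx ⟨(x, y), subset_tsupport _ hne, rfl⟩

theorem fderiv_slice {φ : E₁ × E₂ → ℝ} (h : Test φ) (y : E₂) (x v : E₁) :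
    fderiv ℝ (fun x => φ (x, y)) x v = fderiv ℝ φ (x, y) (v, 0) := by
  have h1 : HasFDerivAt (fun x : E₁ => (x, y)) (ContinuousLinearMap.inl ℝ E₁ E₂) x :=
    (hasFDerivAt_id x).prodMk (hasFDerivAt_const y x)
  have h2 := (h.differentiable (x, y)).hasFDerivAt.comp x h1
  have h3 : (fun x => φ (x, y)) = φ ∘ fun x => (x, y) := rfl
  rw [h3, h2.fderiv]
  simp

theorem isWD_mul_prod {v : E₁} {f g : E₁ → ℂ} {h : E₂ → ℂ} (hf : MemLp f 2 μ) (hg : MemLp g 2 μ)
    (hh : MemLp h 2 ν) (W : IsWD μ v f g) :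
    IsWD (μ.prod ν) (v, 0) (fun z => f z.1 * h z.2) (fun z => g z.1 * h z.2) := by
  intro φ hφ
  have hφ' := hφ.fderiv (v, (0 : E₂))
  have I : ∀ {ψ : E₁ × E₂ → ℝ} {u : E₁ → ℂ}, Test ψ → MemLp u 2 μ →
      Integrable (fun z : E₁ × E₂ => ψ z • (u z.1 * h z.2)) (μ.prod ν) := fun hψ hu =>
    hψ.integrable_smul ((memLp_mul_prod hu hh).locallyIntegrable (by norm_num))
  rw [integral_prod_symm _ (I hφ' hf), integral_prod_symm _ (I hφ hg), ← integral_neg]
  congr 1
  funext y
  have key := W _ (test_slice hφ y)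
  simp only [fderiv_slice hφ] at key
  have e1 : ∫ x, fderiv ℝ φ (x, y) (v, 0) • (f x * h y) ∂μ
      = (∫ x, fderiv ℝ φ (x, y) (v, 0) • f x ∂μ) * h y := by
    rw [← integral_mul_const]
    congr 1; funext x
    rw [smul_mul_assoc]
  have e2 : ∫ x, φ (x, y) • (g x * h y) ∂μ = (∫ x, φ (x, y) • g x ∂μ) * h y := by
    rw [← integral_mul_const]
    congr 1; funext x
    rw [smul_mul_assoc]
  simp only
  rw [e1, e2, key, neg_mul]

end prod

/-- weak derivatives of tensor products. -/
theorem isWD_tp {w : Fin N → R3 → ℂ} (hw : ∀ j, MemLp (w j) 2 volume) (i : Fin N) (k : Fin 3)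
    {g : R3 → ℂ} (hg : MemLp g 2 volume) (W : IsWD volume (e3 k) (w i) g) :
    IsWD volume (dir i k) (tp w) (tp (Function.update w i g)) := by
  obtain _ | n := N
  · exact i.elim0
  rw [← insE_dir, ← isWD_comp_equiv_iff (insE i) (insE_mp i)]
  have h1 : IsWD (volume : Measure (R3 × Conf n)) (e3 k, (0 : Conf n))
      (fun z => w i z.1 * tp (fun j => w (i.succAbove j)) z.2)
      (fun z => g z.1 * tp (fun j => w (i.succAbove j)) z.2) :=
    isWD_mul_prod (μ := (volume : Measure R3)) (ν := (volume : Measure (Conf n)))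
    (hw i) hg (memLp_tp fun j => hw (i.succAbove j)) W
  have e1 : (fun z : R3 × Conf n => tp w (insE i z)) =
      fun z => w i z.1 * tp (fun j => w (i.succAbove j)) z.2 := by
    funext z
    rw [insE_apply, tp_insertNth]
  have e2 : (fun z : R3 × Conf n => tp (Function.update w i g) (insE i z)) =
      fun z => g z.1 * tp (fun j => w (i.succAbove j)) z.2 := by
    funext z
    rw [insE_apply, tp_insertNth]
    simp only [Function.update_self]
    congr 1
    refine Finset.prod_congr rfl fun j _ => ?_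
    simp [Fin.succAbove_ne]
  rw [e1, e2]
  exact h1

theorem memLp_tp_update {w : Fin N → R3 → ℂ} (hw : ∀ j, MemLp (w j) 2 volume) (i : Fin N)
    {g : R3 → ℂ} (hg : MemLp g 2 volume) :
    MemLp (tp (Function.update w i g)) 2 (volume : Measure (Conf N)) := by
  refine memLp_tp fun j => ?_
  by_cases h : j = i
  · subst h; simpa using hg
  · simpa [h] using hw j

end

end Vale.Agent.P363.H95
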